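import Crest.Agent.N337.L4.Gram
import Crest.Agent.N337.L4.Loop
import Crest.Agent.N337.L4.Ret2
import Crest.Agent.N337.TK.Defs
import Crest.Agent.N337.G1.Defs

-- ▼ part N337/L4/Gram2
section

/-!
# Row 337, L4 (helper96): the Gram lemma with conditioned touching terms

Variant of `Gm.gram`: the own term `D a` is arbitrary and the touching term `O a` enters only
through its conditional expectation given the explored cells.
-/

set_option autoImplicit false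
set_option linter.unusedSectionVars false

namespace Crest.Agent.N337.PH

open Finset L4

variable {ι : Type} [Fintype ι] [DecidableEq ι] {E : ι → Type} [∀ i, Fintype (E i)]
  {κ : Type} [Fintype κ] [DecidableEq κ] {α : Type}

variable {p : ∀ i, E i → ℝ} {gr : ι → κ} {s : Finset α} {ρ : α → ℝ}
  {Y : α → ℕ → (∀ i, E i) → Finset ι} {T : ℕ} {e φ ψ : α → (∀ i, E i) → ℝ} {q m : ℝ} {N : ℕ}
  {X : ℕ → (∀ i, E i) → Finset ι} {f g : (∀ i, E i) → ℝ}

/-- the early part of a test function supported on `e` is small. -/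
theorem Expl.zeno_dual (hp : Pr p) (h : Expl X) (hq : 0 < q) {u : (∀ i, E i) → ℝ}
    (h0 : ∀ ω, 0 ≤ u ω) (h1 : ∀ ω, u ω ≤ 1) {c : ℕ → (∀ i, E i) → ℝ}
    (hc : ∀ t, t < T → Meas (X t) (c t)) (hcc : ∀ t ω, c t ω * c t ω = c t ω)
    (hs : ∀ t, t < T → ∀ ω, c t ω ≠ 0 → P p (X t) u ω ≤ q ∧ P p (X (t + 1)) u ω ≤ q)
    (hf : ∀ ω, f ω * u ω = f ω) :
    nsq p (tr c (fun t => P p (X t) f) T) ≤ 64 * q * nsq p f := by
  set F := tr c (fun t => P p (X t) f) T with hF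
  have m : Meas (X T) F := h.meas_tr hp hc f
  have z := L4.zeno hp.w_nn h.filt hq (h.mart hp T u) (fun t _ ω => hp.P_nn h0 ω)
    ((h.mart hp T f).tr h.filt fun t ht => ms_iff.2 (hc t ht)) (fun ω => by simp [tr])
    fun t ht ω k => hs t ht ω fun z => k (by simp only [tr, sum_range_succ, z, zero_mul, add_zero])
  have k := (h.stop T).ex_mul_P hp (m.mul m) u
  simp only [← sq, mul_comm (_ ^ 2)] at k
  have z' : ex p (fun ω => u ω * F ω ^ 2) ≤ 64 * q * nsq p F := by rw [← k]; exact z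
  have e1 : nsq p F = ex p fun ω => (u ω * F ω) * f ω := by
    have a := h.ex_tr_tr hp hc hc f f
    have b := h.ex_tr_mul hp hc f f
    simp only [hcc] at a
    have : nsq p F = ex p fun ω => F ω * F ω := by simp only [nsq, sq]
    rw [this, a, ← b]
    congr 1; ext ω
    linear_combination (-F ω) * hf ω
  have c1 := hp.cs (fun ω => u ω * F ω) f
  have c2 : nsq p (fun ω => u ω * F ω) ≤ ex p fun ω => u ω * F ω ^ 2 := hp.ex_mono fun ω => by
    rw [mul_pow]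
    refine mul_le_mul_of_nonneg_right ?_ (sq_nonneg _)
    nlinarith [h0 ω, h1 ω]
  rw [← e1] at c1
  have n0 := hp.nsq_nn f
  refine le_of_sq_le_mul (by positivity) (c1.trans ?_)
  nlinarith [mul_le_mul_of_nonneg_right (c2.trans z') n0]

/-- hypotheses of the Gram lemma. -/
structure Gm2 (p : ∀ i, E i → ℝ) (s : Finset α) (Y : α → ℕ → (∀ i, E i) → Finset ι) (T : ℕ)
    (e ψ D O : α → (∀ i, E i) → ℝ) (Ψ : (∀ i, E i) → ℝ) (q : ℝ) : Prop where
  q0 : 0 < q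
  e0 : ∀ a ∈ s, ∀ ω, 0 ≤ e a ω
  e1 : ∀ a ∈ s, ∀ ω, e a ω ≤ 1
  eq : ∀ a ∈ s, ex p (e a) ≤ q
  meas : ∀ a ∈ s, Meas (Y a T) (ψ a)
  ψe : ∀ a ∈ s, ∀ ω, ψ a ω * e a ω = ψ a ω
  split : ∃ (θ : α → ℕ → (∀ i, E i) → Prop) (Z : α → Finset ι) (V : α → (∀ i, E i) → ℝ),
    (∀ a ∈ s, ∀ t, t < T → ∀ ω ω', (∀ i ∈ Y a t ω, ω' i = ω i) → (θ a t ω' ↔ θ a t ω)) ∧
    (∀ a ∈ s, ∀ t, t < T → ∀ ω, θ a t ω →
      P p (Y a t) (e a) ω ≤ q ∧ P p (Y a (t + 1)) (e a) ω ≤ q) ∧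
    (∀ a ∈ s, ∀ t, t < T → ∀ ω, ¬ θ a t ω → Y a (t + 1) ω \ Y a t ω ⊆ Z a) ∧
    (∀ a ∈ s, Meas (fun _ => (Z a)ᶜ) (V a)) ∧
    ∀ a ∈ s, ∀ t, t < T → ∀ ω, ¬ θ a t ω → Ψ ω = V a ω + D a ω + O a ω

/-- **Gram lemma.** -/
theorem Gm2.gram {D O : α → (∀ i, E i) → ℝ} {Ψ : (∀ i, E i) → ℝ} (hp : Pr p)
    (H : Sh gr s ρ Y T m N) (K : Gm2 p s Y T e ψ D O Ψ q) :
    ((∑ a ∈ s, ex p fun ω => ψ a ω * (Ψ ω - ex p Ψ)) - ∑ a ∈ s, ex p fun ω => ψ a ω * D a ω) ^ 2 ≤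
      3 * (∑ a ∈ s, nsq p (ψ a) / ρ a) * (3072 * q * m * (Nat.log 2 N + 1) * var p Ψ +
        130 * q * ∑ a ∈ s, ρ a * nsq p (D a) +
          ∑ a ∈ s, ρ a * nsq p (P p (Y a T) (O a))) := by
  classical
  obtain ⟨θ, Z, V, hθ, hq, hZ, hV, hd⟩ := K.split
  have q0 := K.q0
  set c : α → ℕ → (∀ i, E i) → ℝ := fun a t ω => if θ a t ω then 1 else 0 with hc
  have mc : ∀ a ∈ s, ∀ t, t < T → Meas (Y a t) (c a t) := fun a ha t ht ω ω' k => by
    simp only [c, hθ a ha t ht ω ω' k]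
  have mc' : ∀ a ∈ s, ∀ t, t < T → Meas (Y a t) fun ω => 1 - c a t ω := fun a ha t ht =>
    (meas_const 1).sub (mc a ha t ht)
  have P0 : ∀ a ∈ s, ∀ f ω, P p (Y a 0) f ω = ex p f := fun a ha f ω => P_empty f ω (H.zero a ha ω)
  set er : α → ((∀ i, E i) → ℝ) → (∀ i, E i) → ℝ := fun a f =>
    tr (c a) (fun t => P p (Y a t) f) T with her
  set la : α → ((∀ i, E i) → ℝ) → (∀ i, E i) → ℝ := fun a f =>
    tr (fun t ω => 1 - c a t ω) (fun t => P p (Y a t) f) T with hla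
  have sp : ∀ a ∈ s, ∀ f ω, er a f ω + la a f ω = P p (Y a T) f ω - ex p f := fun a ha f ω => by
    rw [← P0 a ha f ω]; exact tr_add_tr _ _ _ _
  have zn : ∀ a ∈ s, ∀ f, ex p (fun ω => e a ω * er a f ω ^ 2) ≤
      64 * q * nsq p fun ω => P p (Y a T) f ω - ex p f := fun a ha f => by
    have z := (H.expl a ha).zeno hp q0 (K.e0 a ha) (mc a ha)
      (fun t ω => by simp only [c]; split_ifs <;> simp)
      (fun t ht ω z => hq a ha t ht ω (by by_contra k; simp [c, k] at z)) f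
    simpa only [P0 a ha] using z
  have esq : ∀ a ∈ s, ∀ u : (∀ i, E i) → ℝ, nsq p (fun ω => e a ω * u ω) ≤
      ex p fun ω => e a ω * u ω ^ 2 := fun a ha u => hp.ex_mono fun ω => by
    rw [mul_pow]
    refine mul_le_mul_of_nonneg_right ?_ (sq_nonneg _)
    nlinarith [K.e0 a ha ω, K.e1 a ha ω]
  have Pψ : ∀ a ∈ s, nsq p (fun ω => P p (Y a T) (ψ a) ω - ex p (ψ a)) ≤ nsq p (ψ a) :=
    fun a ha => by simpa only [(K.meas a ha).P_eq hp, var] using hp.var_le (ψ a)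
  have dec : ((∑ a ∈ s, ex p fun ω => ψ a ω * (Ψ ω - ex p Ψ)) -
      ∑ a ∈ s, ex p fun ω => ψ a ω * D a ω) =
      ∑ a ∈ s, ex p (fun ω => ψ a ω * (e a ω * er a Ψ ω)) -
      ∑ a ∈ s, ex p (fun ω => (ex p (ψ a) + er a (ψ a) ω) * D a ω) +
      ∑ a ∈ s, ex p (fun ω => la a (ψ a) ω * P p (Y a T) (O a) ω) := by
    rw [← sum_sub_distrib, ← sum_sub_distrib, ← sum_add_distrib]
    refine sum_congr rfl fun a ha => ?_
    have a1 : ex p (fun ω => ψ a ω * (Ψ ω - ex p Ψ)) =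
        ex p (fun ω => ψ a ω * (e a ω * er a Ψ ω)) + ex p fun ω => ψ a ω * la a Ψ ω := by
      rw [← ex_add, ← ((H.expl a ha).stop T).ex_mul_P hp (K.meas a ha)]
      congr 1; ext ω
      rw [P_sub, hp.P_const, ← sp a ha, ← mul_assoc, K.ψe a ha]; ring
    have a2 : ex p (fun ω => ψ a ω * la a Ψ ω) = ex p fun ω => la a (ψ a) ω * Ψ ω :=
      (H.expl a ha).tr_swap hp (mc' a ha) _ _
    have a3 : ex p (fun ω => la a (ψ a) ω * V a ω) = 0 := (H.expl a ha).ex_tr_off hp (mc' a ha)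
      (fun t ht ω z => hZ a ha t ht ω fun k => z (by simp [c, k])) (hV a ha) _
    have a4 : (fun ω => la a (ψ a) ω * Ψ ω) = fun ω => la a (ψ a) ω * V a ω +
        (ψ a ω * D a ω - (ex p (ψ a) + er a (ψ a) ω) * D a ω) + la a (ψ a) ω * O a ω := by
      ext ω
      have b1 := sp a ha (ψ a) ω
      rw [(K.meas a ha).P_eq hp] at b1
      have b3 : la a (ψ a) ω * Ψ ω = la a (ψ a) ω * (V a ω + D a ω + O a ω) := by
        by_cases k : ∀ t, t < T → θ a t ω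
        · have : la a (ψ a) ω = 0 := sum_eq_zero fun t ht => by simp [c, k t (mem_range.1 ht)]
          simp [this]
        · push Not at k
          obtain ⟨t, ht, k⟩ := k
          rw [hd a ha t ht ω k]
      rw [b3]
      linear_combination D a ω * b1
    have a5 := ((H.expl a ha).stop T).ex_mul_P hp
      ((H.expl a ha).meas_tr hp (mc' a ha) (ψ a)) (O a)
    rw [a1, a2, a4, ex_add, ex_add, ex_sub, a3]
    simp only [la, a5]; ring
  set Φ := ∑ a ∈ s, nsq p (ψ a) / ρ a with hΦ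
  have Φ0 : 0 ≤ Φ := sum_nonneg fun a ha => div_nonneg (hp.nsq_nn _) (H.pos a ha).le
  have s0 : ∀ u : α → (∀ i, E i) → ℝ, 0 ≤ ∑ a ∈ s, ρ a * nsq p (u a) := fun u =>
    sum_nonneg fun a ha => mul_nonneg (H.pos a ha).le (hp.nsq_nn _)
  have c1 : (∑ a ∈ s, ex p fun ω => ψ a ω * (e a ω * er a Ψ ω)) ^ 2 ≤
      Φ * (64 * q * (48 * m * (Nat.log 2 N + 1) * var p Ψ)) := by
    refine (hp.cs_sum s H.pos ψ _).trans (mul_le_mul_of_nonneg_left ?_ Φ0)
    refine le_trans ?_ (mul_le_mul_of_nonneg_left (H.shearer hp Ψ) (by positivity))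
    rw [mul_sum]
    refine sum_le_sum fun a ha => ?_
    rw [mul_left_comm]
    exact mul_le_mul_of_nonneg_left ((esq a ha _).trans (zn a ha Ψ)) (H.pos a ha).le
  have c2 : (∑ a ∈ s, ex p fun ω => (ex p (ψ a) + er a (ψ a) ω) * D a ω) ^ 2 ≤
      130 * q * Φ * ∑ a ∈ s, ρ a * nsq p (D a) := by
    refine (hp.cs_sum s H.pos _ D).trans (mul_le_mul_of_nonneg_right ?_ (s0 D))
    rw [hΦ, mul_sum]
    refine sum_le_sum fun a ha => ?_
    rw [← mul_div_assoc]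
    refine div_le_div_of_nonneg_right ?_ (H.pos a ha).le
    refine (hp.ex_mono (g := fun ω => 2 * ex p (ψ a) ^ 2 + 2 * er a (ψ a) ω ^ 2)
      fun ω => ?_).trans ?_
    · nlinarith [sq_nonneg (ex p (ψ a) - er a (ψ a) ω)]
    · rw [ex_add, ex_mul, ex_mul, hp.ex_const]
      have b1 := (H.expl a ha).zeno_dual hp q0 (K.e0 a ha) (K.e1 a ha) (mc a ha)
        (fun t ω => by simp only [c]; split_ifs <;> simp)
        (fun t ht ω z => hq a ha t ht ω (by by_contra k; simp [c, k] at z)) (K.ψe a ha)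
      have b2 := hp.cs (ψ a) (e a)
      simp only [K.ψe a ha] at b2
      have b3 : nsq p (e a) ≤ q := le_trans (hp.ex_mono fun ω => by
        nlinarith [K.e0 a ha ω, K.e1 a ha ω]) (K.eq a ha)
      have b4 := mul_le_mul_of_nonneg_left b3 (hp.nsq_nn (ψ a))
      change 2 * _ + 2 * nsq p (er a (ψ a)) ≤ _
      change nsq p (er a (ψ a)) ≤ _ at b1
      nlinarith
  have c3 : (∑ a ∈ s, ex p fun ω => la a (ψ a) ω * P p (Y a T) (O a) ω) ^ 2 ≤
      Φ * ∑ a ∈ s, ρ a * nsq p (P p (Y a T) (O a)) := by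
    refine (hp.cs_sum s H.pos _ fun a => P p (Y a T) (O a)).trans
      (mul_le_mul_of_nonneg_right ?_ (s0 fun a => P p (Y a T) (O a)))
    refine sum_le_sum fun a ha => div_le_div_of_nonneg_right (le_trans ?_ (Pψ a ha)) (H.pos a ha).le
    have z := tr_sq_le hp.w_nn (H.expl a ha).filt ((H.expl a ha).mart hp T (ψ a))
      (fun t ht => ms_iff.2 (mc' a ha t ht)) fun t ω => by simp only [c]; split_ifs <;> simp
    simp only [P0 a ha] at z
    exact z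
  rw [dec]
  have t3 : ∀ x y z : ℝ, (x - y + z) ^ 2 ≤ 3 * (x ^ 2 + y ^ 2 + z ^ 2) := fun x y z => by
    nlinarith [sq_nonneg (x + y), sq_nonneg (x - z), sq_nonneg (y + z)]
  refine (t3 _ _ _).trans ?_
  nlinarith

end Crest.Agent.N337.PH
end

-- ▼ part N337/L4/TKP
section

/-!
# Row 337, L4 (helper96): the linear Turán–Kubilius bounds in the product medium

`tk0`: universal variance bound for a linear statistic of slow loops.
`gram`: the covariance of two linear statistics is diagonal up to a small error.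
-/

set_option autoImplicit false
set_option linter.unusedSectionVars false

namespace Crest.Agent.N337.Arc

open Finset Equiv Crest.Agent.N337.Rep Crest.Agent.N337.LY0

variable {Λ : Type} [Fintype Λ] [DecidableEq Λ] {T : ℕ} [NeZero T] {ex ey : Fin T → Λ}
  {κ : Type} [Fintype κ] [DecidableEq κ] {cl : Fin T → κ} {p : Fin T → ℝ}
  {oks : Λ → (ℕ → Fin T × Λ) → ℕ → Prop} {a c : (Fin T → Bool) → Fin T × Λ → ℝ}

/-- expectation over the coins. -/
abbrev EP (p : Fin T → ℝ) (f : (Fin T → Bool) → ℝ) : ℝ := PH.ex (pb p) f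

/-- the explorers from the roots, `K` periods long, with multiplicity `m` and size `N`. -/
abbrev Shr (ex ey : Fin T → Λ) (cl : Fin T → κ) (oks : Λ → (ℕ → Fin T × Λ) → ℕ → Prop) (K : ℕ)
    (m : ℝ) (N : ℕ) : Prop :=
  PH.Sh (E := fun _ : Fin T => Bool) cl univ (fun _ => 1) (fun r => X ex ey (oks r) (0, r))
    (K * T) m N

/-- speed limits give the hypotheses of the Shearer inequality. -/
theorem shr_of {ws : Fin T → Fin T} {near : Λ → Λ → Prop} (hr : ∀ r, Rule (oks r))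
    (hws : ∀ s, ws s ≤ s) (hok : ∀ r a i, oks r a i → spd ws near a i) {m0 B n0 : ℕ}
    (N : κ → Finset (Fin T × Λ)) (hN : ∀ c, (N c).card ≤ m0)
    (hm : ∀ s x0, near x0 (ex s) ∨ near x0 (ey s) → (ws s, x0) ∈ N (cl s))
    (hB : (univ.image ws).card ≤ B) (M : Fin T × Λ → Finset κ) (hM : ∀ v, (M v).card ≤ n0)
    (hm' : ∀ s x0, near x0 (ex s) ∨ near x0 (ey s) → cl s ∈ M (ws s, x0)) (K : ℕ) :
    Shr ex ey cl oks K (K * m0 : ℕ) (K * B * n0) where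
  expl r _ := expl (hr r)
  zero _ _ ω := X_zero ω
  pos _ _ := one_pos
  m0 := by positivity
  mult ω γ := by
    rw [sum_boole]
    exact_mod_cast mult_le hws hok N hN hm K ω γ
  card r _ ω := size_le hws (hok r) hB M hM hm' K r ω

/-- `a` lives on loops of winding at most `K` along which the explorers run. -/
def Sup (ex ey : Fin T → Λ) (oks : Λ → (ℕ → Fin T × Λ) → ℕ → Prop) (K : ℕ)
    (a : (Fin T → Bool) → Fin T × Λ → ℝ) : Prop :=
  ∀ r ξ, a ξ (0, r) ≠ 0 → A.wind ex ey ξ (0, r) ≤ K ∧ ∀ i, oks r (arc ex ey (0, r) ξ) i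

lemma sum_nsq_psi (ha : LF ex ey a) : ∑ r, PH.nsq (pb p) (psi ex ey a r) =
    EP p (Phi ex ey fun ξ v => a ξ v ^ 2 / A.wind ex ey ξ v) := by
  simp only [PH.nsq]
  rw [← PH.ex_sum]
  congr 1; funext ξ; exact sum_psi_sq ha ξ

/-- **TK0.** -/
theorem tk0 (hp : ∀ s, 0 ≤ p s ∧ p s ≤ 1) (hr : ∀ r, Rule (oks r)) {K N : ℕ} {m : ℝ}
    (H : Shr ex ey cl oks K m N) (hc : LF ex ey c) (hs : Sup ex ey oks K c) :
    PH.var (pb p) (Phi ex ey c) ≤ 48 * m * (Nat.log 2 N + 1) *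
      EP p (Phi ex ey fun ξ v => c ξ v ^ 2 / A.wind ex ey ξ v) := by
  have k := H.dual (pr_pb hp) (φ := psi ex ey c) fun r _ => meas_psi hc (hr r) (hs r)
  simp only [div_one, ← Phi_eq hc, sum_nsq_psi hc] at k
  exact k

open Classical in
/-- the number of loops of the support of `c` that touch `Z` and miss `u`. -/
noncomputable def cnt (ex ey : Fin T → Λ) (c : (Fin T → Bool) → Fin T × Λ → ℝ)
    (Z : Finset (Fin T)) (u : Fin T × Λ) : (Fin T → Bool) → ℝ :=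
  Phi ex ey fun ξ v => if ¬ Disjoint (tch ex ey (lo ex ey ξ v)) Z ∧ u ∉ lo ex ey ξ v ∧ c ξ v ≠ 0
    then 1 else 0

lemma Phi_own (hc : LF ex ey c) (u : Fin T × Λ) (ξ : Fin T → Bool) :
    Phi ex ey (fun ξ v => if u ∈ lo ex ey ξ v then c ξ v else 0) ξ = c ξ u := by
  rw [Phi, sum_eq_single (o (Sg ex ey ξ) u)]
  · have : u ∈ lo ex ey ξ (bp (o (Sg ex ey ξ) u)) := mem_lo.2 (o_bp _).symm
    rw [if_pos this, hc.of_mem this]
  · intro g _ hg
    exact if_neg fun k => hg (by rw [mem_lo.1 k, o_bp])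
  · simp

open Classical in
/-- hypotheses of the Gram bound: zones `W r`, closure bound `q`, touch bound `q'`. -/
structure Gh (ex ey : Fin T → Λ) (p : Fin T → ℝ) (oks : Λ → (ℕ → Fin T × Λ) → ℕ → Prop)
    (K K' mZ : ℕ) (W : Λ → Finset (Fin T × Λ)) (a c : (Fin T → Bool) → Fin T × Λ → ℝ)
    (q q' : ℝ) : Prop where
  q0 : 0 < q
  h0 : ∀ r, EP p (fun ξ => if a ξ (0, r) = 0 then 0 else 1) ≤ q
  h1 : ∀ r t ξ, run ex ey (oks r) (0, r) ξ t → t < per (Sg ex ey ξ) (0, r) →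
    arc ex ey (0, r) ξ t ∉ W r →
    PH.P (pb p) (X ex ey (oks r) (0, r) t) (fun ξ => if a ξ (0, r) = 0 then 0 else 1) ξ ≤ q ∧
    PH.P (pb p) (X ex ey (oks r) (0, r) (t + 1)) (fun ξ => if a ξ (0, r) = 0 then 0 else 1) ξ ≤ q
  tou : ∀ r ξ, PH.P (pb p) (X ex ey (oks r) (0, r) (K * T))
    (cnt ex ey c (tch ex ey (W r)) (0, r)) ξ ≤ q'
  wc : ∀ ξ v, c ξ v ≠ 0 → A.wind ex ey ξ v ≤ K'
  mz : ∀ ξ v, c ξ v ≠ 0 →
    (univ.filter fun r => ¬ Disjoint (tch ex ey (lo ex ey ξ v)) (tch ex ey (W r))).card ≤ mZ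

lemma mem_Al_iff {ok : (ℕ → Fin T × Λ) → ℕ → Prop} {u : Fin T × Λ} {ξ : Fin T → Bool} {t : ℕ}
    (h : run ex ey ok u ξ t) :
    arc ex ey u ξ t ∈ Al ex ey ok u t ξ ↔ per (Sg ex ey ξ) u ≤ t := by
  constructor
  · intro k
    obtain ⟨i, hi, -, e⟩ := mem_Al.1 k
    by_contra hc
    have := it_inj (π := Sg ex ey ξ) (x := u) (i := i) (j := t) (by omega) (by omega) e
    omega
  · intro k
    have h1 := Nat.mod_lt t (per_pos (Sg ex ey ξ) u)
    exact mem_Al.2 ⟨t % per (Sg ex ey ξ) u, by omega, fun j hj => h j (by omega),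
      Function.iterate_mod_minimalPeriod_eq⟩

/-- **product Gram bound.** -/
theorem gram (hp : ∀ s, 0 ≤ p s ∧ p s ≤ 1) (hr : ∀ r, Rule (oks r)) {K K' mZ N : ℕ} {m q q' : ℝ}
    {W : Λ → Finset (Fin T × Λ)} (H : Shr ex ey cl oks K m N) (ha : LF ex ey a) (hc : LF ex ey c)
    (hs : Sup ex ey oks K a) (G : Gh ex ey p oks K K' mZ W a c q q') :
    (EP p (fun ξ => Phi ex ey a ξ * (Phi ex ey c ξ - EP p (Phi ex ey c))) -
      EP p (Phi ex ey fun ξ v => a ξ v * c ξ v)) ^ 2 ≤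
      3 * EP p (Phi ex ey fun ξ v => a ξ v ^ 2 / A.wind ex ey ξ v) *
        (3072 * q * m * (Nat.log 2 N + 1) * PH.var (pb p) (Phi ex ey c) +
          (130 * q * K' + q' * mZ) * EP p (Phi ex ey fun ξ v => c ξ v ^ 2)) := by
  classical
  have hP := pr_pb hp
  set e : Λ → (Fin T → Bool) → ℝ := fun r ξ => if a ξ (0, r) = 0 then 0 else 1 with he
  set Z : Λ → Finset (Fin T) := fun r => tch ex ey (W r) with hZ
  set O : Λ → (Fin T → Bool) → ℝ := fun r => Phi ex ey fun ξ v =>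
    if ¬ Disjoint (tch ex ey (lo ex ey ξ v)) (Z r) ∧ (0, r) ∉ lo ex ey ξ v then c ξ v else 0 with hO
  set S : Λ → (Fin T → Bool) → ℝ := fun r => Phi ex ey fun ξ v =>
    if ¬ Disjoint (tch ex ey (lo ex ey ξ v)) (Z r) then c ξ v ^ 2 else 0 with hS
  have dead : ∀ r t ξ, ¬ run ex ey (oks r) (0, r) ξ t → ∀ n, t ≤ n →
      PH.P (pb p) (X ex ey (oks r) (0, r) n) (e r) ξ ≤ q := by
    intro r t ξ h n hn
    refine le_trans (le_of_eq ?_) G.q0.le
    refine sum_eq_zero fun η _ => ?_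
    have k := run_iff (hr r) (ξ := ξ) (ξ' := PH.pw (X ex ey (oks r) (0, r) n ξ) ξ η)
      (fun s hs => PH.pw_mem _ _ hs) hn
    have : a (PH.pw (X ex ey (oks r) (0, r) n ξ) ξ η) (0, r) = 0 := by
      by_contra hc
      exact h (k.1 fun j _ => (hs r _ hc).2 j)
    simp only [he, this, if_true, mul_zero]
  have gm : PH.Gm2 (E := fun _ : Fin T => Bool) (pb p) univ (fun r => X ex ey (oks r) (0, r))
      (K * T) e (psi ex ey a) (fun r ξ => c ξ (0, r)) O (Phi ex ey c) q := by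
    refine ⟨G.q0, fun r _ ξ => ?_, fun r _ ξ => ?_, fun r _ => G.h0 r,
      fun r _ => meas_psi ha (hr r) (hs r), fun r _ ξ => ?_,
      fun r t ξ => run ex ey (oks r) (0, r) ξ t →
        arc ex ey (0, r) ξ t ∉ Al ex ey (oks r) (0, r) t ξ ∧ arc ex ey (0, r) ξ t ∉ W r,
      Z, fun r => Phi ex ey fun ξ v => if Disjoint (tch ex ey (lo ex ey ξ v)) (Z r) then
        (if (0, r) ∉ lo ex ey ξ v then c ξ v else 0) else 0,
      fun r _ t _ ξ ξ' h => ?_, fun r _ t _ ξ h => ?_, fun r _ t _ ξ h s hs => ?_,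
      fun r _ => meas_out (hc.ite fun O => (0, r) ∉ O) (Z r), fun r _ t _ ξ _ => ?_⟩
    · simp only [he]; split_ifs <;> norm_num
    · simp only [he]; split_ifs <;> norm_num
    · simp only [he, psi]; split_ifs with h <;> simp [h]
    · beta_reduce
      rw [run_iff (hr r) h le_rfl]
      refine imp_congr_right fun k => ?_
      rw [Al_stop (hr r) h, agree h t le_rfl fun j hj => k j hj.le]
    · by_cases k : run ex ey (oks r) (0, r) ξ t
      · exact G.h1 r t ξ k (not_le.1 fun z => (h k).1 ((mem_Al_iff k).2 z)) (h k).2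
      · exact ⟨dead r t ξ k t le_rfl, dead r t ξ k _ t.le_succ⟩
    · obtain ⟨k1, k2⟩ := new_coin (mem_sdiff.1 hs).1 (mem_sdiff.1 hs).2
      have k3 : arc ex ey (0, r) ξ t ∉ Al ex ey (oks r) (0, r) t ξ := fun z =>
        (mem_sdiff.1 hs).2 ((mem_tch ex ey).2
          (k2.imp (fun y => by rwa [← y]) fun y => by rwa [← y]))
      have k4 : arc ex ey (0, r) ξ t ∈ W r := by
        by_contra z; exact h fun _ => ⟨k3, z⟩
      exact (mem_tch ex ey).2 (k2.imp (fun y => by rwa [← y]) fun y => by rwa [← y])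
    · rw [← Phi_own hc (0, r) ξ]
      simp only [hO, Phi, ← sum_add_distrib]
      refine sum_congr rfl fun g _ => ?_
      by_cases h1 : Disjoint (tch ex ey (lo ex ey ξ (bp g))) (Z r) <;>
        by_cases h2 : (0, r) ∈ lo ex ey ξ (bp g) <;> simp [h1, h2]
  have k := gm.gram hP H
  simp only [div_one, one_mul, sum_nsq_psi ha] at k
  rw [← PH.ex_sum, ← PH.ex_sum] at k
  simp only [← sum_mul, ← Phi_eq ha, sum_psi_mul ha hc] at k
  refine k.trans (mul_le_mul_of_nonneg_left ?_ (mul_nonneg (by norm_num)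
    (hP.ex_nn (Phi_nonneg fun ξ v => by positivity))))
  rw [add_assoc, add_mul]
  have q0 := G.q0
  refine add_le_add le_rfl (add_le_add ?_ ?_)
  · rw [mul_assoc (130 * q)]
    refine mul_le_mul_of_nonneg_left ?_ (by positivity)
    simp only [PH.nsq]
    rw [← PH.ex_sum, ← PH.ex_mul]
    refine hP.ex_mono fun ξ => ?_
    rw [sum_root (hc.comp (· ^ 2)), Phi, Phi, mul_sum]
    refine sum_le_sum fun g _ => ?_
    by_cases z : c ξ (bp g) = 0
    · simp [z]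
    · rw [mul_comm]
      exact mul_le_mul_of_nonneg_right (by exact_mod_cast G.wc ξ _ z) (sq_nonneg _)
  have S0 : ∀ r ξ, 0 ≤ S r ξ := fun r => Phi_nonneg fun ξ v => by split_ifs <;> positivity
  have n0 : ∀ r ξ, 0 ≤ cnt ex ey c (Z r) (0, r) ξ := fun r =>
    Phi_nonneg fun ξ v => by split_ifs <;> positivity
  have c1 : ∀ r ξ, O r ξ ^ 2 ≤ cnt ex ey c (Z r) (0, r) ξ * S r ξ := fun r ξ => by
    refine sum_sq_le_sum_mul_sum_of_sq_le_mul _
      (fun g _ => by beta_reduce; split_ifs <;> positivity)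
      (fun g _ => by beta_reduce; split_ifs <;> positivity) fun g _ => ?_
    by_cases h1 : Disjoint (tch ex ey (lo ex ey ξ (bp g))) (Z r) <;>
      by_cases h2 : (0, r) ∈ lo ex ey ξ (bp g) <;> by_cases h3 : c ξ (bp g) = 0 <;>
      simp [h1, h2, h3]
  have c2 : ∀ r, PH.nsq (pb p) (PH.P (pb p) (X ex ey (oks r) (0, r) (K * T)) (O r)) ≤
      q' * EP p (S r) := fun r => by
    rw [EP, ← ((expl (hr r)).stop (K * T)).ex_P hP (S r), ← PH.ex_mul]
    refine hP.ex_mono fun ξ => le_trans ?_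
      (mul_le_mul_of_nonneg_right (G.tou r ξ) (hP.P_nn (S0 r) ξ))
    refine sum_sq_le_sum_mul_sum_of_sq_le_mul _ (fun η _ => mul_nonneg (hP.w_nn η) (n0 r _))
      (fun η _ => mul_nonneg (hP.w_nn η) (S0 r _)) fun η _ => ?_
    rw [mul_pow, mul_mul_mul_comm, ← sq]
    exact mul_le_mul_of_nonneg_left (c1 r _) (sq_nonneg _)
  rcases isEmpty_or_nonempty Λ with hΛ | ⟨⟨r0⟩⟩
  · have z : ∀ ξ, Phi ex ey (fun ξ v => c ξ v ^ 2) ξ = 0 := fun ξ => by
      rw [Phi_eq (hc.comp (· ^ 2))]; simp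
    simp [PH.ex, z]
  have q1 : 0 ≤ q' := (hP.P_nn (n0 r0) fun _ => false).trans (G.tou r0 _)
  refine (sum_le_sum fun r _ => c2 r).trans ?_
  rw [← mul_sum, mul_assoc]
  refine mul_le_mul_of_nonneg_left ?_ q1
  rw [← PH.ex_sum, ← PH.ex_mul]
  refine hP.ex_mono fun ξ => ?_
  simp only [hS, Phi]
  rw [sum_comm, mul_sum]
  refine sum_le_sum fun g _ => ?_
  by_cases z : c ξ (bp g) = 0
  · simp [z]
  · rw [← sum_filter, sum_const, nsmul_eq_mul]
    exact mul_le_mul_of_nonneg_right (by exact_mod_cast G.mz ξ _ z) (sq_nonneg _)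

end Crest.Agent.N337.Arc
end

-- ▼ part N337/L4/Close
section

/-!
# Row 337, block L4 (helper96): the hypotheses of the Gram bound from `HG` and `HE`
-/

set_option autoImplicit false
set_option linter.unusedSectionVars false

namespace Crest.Agent.N337.Arc

open Finset Equiv Crest.Agent.N337.Rep Crest.Agent.N337.LY0

variable {Λ : Type} [Fintype Λ] [DecidableEq Λ] {T : ℕ} [NeZero T] {ex ey : Fin T → Λ}
  {p : Fin T → ℝ} {b : Fin T × Λ → ℝ} {Gd0 Gd1 : Finset (Fin T × Λ) → (Fin T → Bool) → Prop}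
  {Pr Pr2 : Fin T × Λ → Fin T × Λ → Prop} {γ γ2 ε L : ℝ} {ws : Fin T → Fin T} {near : Λ → Λ → Prop}
  {a c : (Fin T → Bool) → Fin T × Λ → ℝ} {ξ : Fin T → Bool}

/-- every time slice of a loop has `wind` points. -/
lemma slice (ξ : Fin T → Bool) (v : Fin T × Λ) (s : Fin T) :
    (univ.filter fun x : Λ => (s, x) ∈ lo ex ey ξ v).card = A.wind ex ey ξ v := by
  rw [wind_eq]
  have ht : ∀ x, arc ex ey (0, x) ξ s.val = (s, (arc ex ey (0, x) ξ s.val).2) := fun x =>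
    Prod.ext (Fin.ext (by rw [arc_time]; simp [Nat.mod_eq_of_lt s.2])) rfl
  have inj : Function.Injective fun x => (arc ex ey (0, x) ξ s.val).2 := fun x y h => by
    have : arc ex ey (0, x) ξ s.val = arc ex ey (0, y) ξ s.val := by
      rw [ht x, ht y]; exact congrArg _ h
    exact (Prod.ext_iff.1 ((Sg ex ey ξ).injective.iterate _ this)).2
  refine (card_bijective _ inj.bijective_of_finite fun x => ?_).symm
  simp only [mem_filter, mem_univ, true_and]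
  rw [← ht, mem_lo, mem_lo, arc, o_it]

lemma supp_pin {A : Finset (Fin T)} {η : Fin T → Bool} (h : Pw p ξ ≠ 0)
    (h' : Pw (pin p A ξ) η ≠ 0) : Pw p η ≠ 0 := by
  refine prod_ne_zero_iff.2 fun s _ => ?_
  by_cases k : s ∈ A
  · rw [Pw_pin_supp h' s k]; exact prod_ne_zero_iff.1 h s (mem_univ s)
  · simpa only [pin, if_neg k] using prod_ne_zero_iff.1 h' s (mem_univ s)

/-- the probabilistic inputs. -/
structure Inp (ex ey : Fin T → Λ) (p : Fin T → ℝ) (b : Fin T × Λ → ℝ)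
    (Gd0 Gd1 : Finset (Fin T × Λ) → (Fin T → Bool) → Prop) (Pr : Fin T × Λ → Fin T × Λ → Prop)
    (γ ε L : ℝ) : Prop where
  hp : ∀ s, 0 ≤ p s ∧ p s ≤ 1
  hb : Fld b
  mono : Mono ex ey Gd1
  hG : HG ex ey p b Gd1 Pr γ
  hE : HE ex ey p b Gd0 Gd1 ε
  γ0 : 0 < γ
  L1 : 1 ≤ L
  g0 : ∀ ξ, Gd0 ∅ ξ

lemma Inp.ε0 (I : Inp ex ey p b Gd0 Gd1 Pr γ ε L) : 0 ≤ ε :=
  (bm_nn I.hp I.hb Gd1 ∅ fun _ => false).trans (I.hE _ _ (I.g0 _) (by rw [ends_empty]; omega))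

/-- **closure of an arc.** -/
theorem close (I : Inp ex ey p b Gd0 Gd1 Pr γ ε L) {ok : (ℕ → Fin T × Λ) → ℕ → Prop}
    {u : Fin T × Λ} {n : ℕ} (hn : run ex ey ok u ξ n) (hp : n < per (Sg ex ey ξ) u)
    (hg : Gd0 (Al ex ey ok u (n + 1) ξ) ξ) (hP : Pr u (arc ex ey u ξ (n + 1)))
    (H : (Fin T → Bool) → ℝ) (H1 : ∀ η, H η ≤ 1)
    (hH : ∀ η, Pw (pin p (X ex ey ok u (n + 1) ξ) ξ) η ≠ 0 →
      H η ≤ L * pr (Sg ex ey η) b (o _ u)) :
    PH.P (pb p) (X ex ey ok u (n + 1)) H ξ ≤ L * (γ + ε) := by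
  have L0 : 0 ≤ L := zero_le_one.trans I.L1
  have he := ends_Al (ex := ex) (ey := ey) ok u (n + 1) ξ
  rw [P_pin, X, mul_add]
  rw [arc_succ] at hP
  refine (retE I.hp I.hb I.mono I.hG I.γ0.le L0 (he.trans one_le_two)
    (mem_Al.2 ⟨n, n.lt_succ_self, hn, rfl⟩) hP H fun η k => (hH η k).trans ?_).trans
    (add_le_add le_rfl (le_trans (sum_le_sum fun η _ => ?_)
      ((I.hE _ _ hg he).trans (le_mul_of_one_le_left I.ε0 I.L1))))
  · have e : ∀ i ≤ n + 1, arc ex ey u η i = arc ex ey u ξ i := fun i hi =>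
      agree (Pw_pin_supp k) i hi fun j hj => hn j (by omega)
    have h1 : n + 1 ≤ per (Sg ex ey η) u := by
      by_contra hc
      have h2 := per_pos (Sg ex ey η) u
      have := it_inj (π := Sg ex ey ξ) (x := u) (i := per (Sg ex ey η) u) (j := 0) (by omega)
        (by omega) ((e _ (by omega)).symm.trans (it_per _ _))
      omega
    rw [← arc_succ, ← e _ le_rfl]
    refine mul_le_mul_of_nonneg_left (le_trans ?_ (aw_rest I.hb.mem h1 fun i h2 h3 h4 => ?_)) L0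
    · exact prod_le_prod_of_subset_of_le_one sdiff_subset (fun v _ => (I.hb.mem v).1)
        fun v _ _ => (I.hb.mem v).2
    · obtain ⟨j, hj, -, e3⟩ := mem_Al.1 h4
      have := it_inj (π := Sg ex ey η) (x := u) (i := j) (j := i) (by omega) h3
        ((e j hj.le).trans e3)
      omega
  · exact mul_le_mul_of_nonneg_left (mul_le_of_le_one_left (bad_nn I.hb _ _ _) (H1 η))
      (Pw_nonneg (pin_mem I.hp _ _) η)

/-- **closure of a far reaching loop** in a good environment. -/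
theorem far (I : Inp ex ey p b Gd0 Gd1 Pr γ ε L) {E F : Finset (Fin T × Λ)} {z : Fin T × Λ}
    (hg : Gd0 E ξ) (he : ends ex ey ξ E ≤ 1) (hz : z ∉ F) (hF : ∀ f ∈ F, Pr z f)
    (H : (Fin T → Bool) → ℝ) (H1 : ∀ η, H η ≤ 1)
    (hH : ∀ η, Pw (pin p (tch ex ey E) ξ) η ≠ 0 → H η ≠ 0 → ¬ Disjoint (lo ex ey η z) F ∧
      Disjoint (lo ex ey η z) E ∧ 1 ≤ L * pr (Sg ex ey η) b (o _ z)) :
    ∑ η, Pw (pin p (tch ex ey E) ξ) η * H η ≤ L * (γ + ε) := by
  have L0 : 0 ≤ L := zero_le_one.trans I.L1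
  refine le_trans ?_ (mul_le_mul_of_nonneg_left ((ret2 I.hp I.hb I.mono I.hG I.γ0.le he hz hF).trans
    (add_le_add le_rfl (I.hE _ _ hg he))) L0)
  rw [mul_sum]
  refine sum_le_sum fun η _ => ?_
  by_cases k : Pw (pin p (tch ex ey E) ξ) η = 0
  · simp [k]
  rw [mul_left_comm]
  refine mul_le_mul_of_nonneg_left ?_ (Pw_nonneg (pin_mem I.hp _ _) η)
  by_cases h : H η = 0
  · rw [h]
    refine mul_nonneg L0 ?_
    split_ifs; exacts [le_rfl, pr_nonneg (fun v => ((I.hb.kill E).mem v).1) _]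
  · obtain ⟨h1, h2, h3⟩ := hH η k h
    rw [if_neg h1, pr_congr (a := kill b E) (b := b) fun v hv =>
      if_neg (disjoint_left.1 h2 (mem_lo.2 hv))]
    exact (H1 η).trans h3

/-- the class of the loop through `v`: slow, heavy, with good (perturbed) parts. -/
structure Cls (ex ey : Fin T → Λ) (b : Fin T × Λ → ℝ)
    (Gd0 : Finset (Fin T × Λ) → (Fin T → Bool) → Prop) (ws : Fin T → Fin T) (near : Λ → Λ → Prop)
    (L : ℝ) (ξ : Fin T → Bool) (v : Fin T × Λ) : Prop where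
  slow : ∀ r, (0, r) ∈ lo ex ey ξ v → ∀ i, spd ws near (arc ex ey (0, r) ξ) i
  wt : 1 ≤ L * pr (Sg ex ey ξ) b (o _ v)
  gd : ∀ O ⊆ lo ex ey ξ v, ∀ ξ' w, (∀ x ∈ O, x ≠ w → Sg ex ey ξ' x = Sg ex ey ξ x) → Gd0 O ξ'

/-- the stop rule: slow and good whatever the next step is. -/
def okG (ex ey : Fin T → Λ) (Gd0 : Finset (Fin T × Λ) → (Fin T → Bool) → Prop)
    (ws : Fin T → Fin T) (near : Λ → Λ → Prop) (r : Λ) (a : ℕ → Fin T × Λ) (i : ℕ) : Prop :=
  spd ws near a i ∧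
    ∀ ξ', (∀ j ≤ i, arc ex ey (0, r) ξ' j = a j) → Gd0 ((range (i + 1)).image a) ξ'

lemma rule_okG (r : Λ) : Rule (okG ex ey Gd0 ws near r) := by
  refine (rule_spd ws near).and fun a a' i h k ξ' e => ?_
  rw [image_congr (g := a) fun j hj => h j (by simpa [Nat.lt_succ_iff] using hj)]
  exact k ξ' fun j hj => (e j hj).trans (h j hj)

lemma Cls.ok {r : Λ} (h : Cls ex ey b Gd0 ws near L ξ (0, r)) (i : ℕ) :
    okG ex ey Gd0 ws near r (arc ex ey (0, r) ξ) i := by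
  refine ⟨h.slow r (self_mem_lo _ _) i, fun ξ' e => h.gd _ (fun x hx => ?_) ξ'
    (arc ex ey (0, r) ξ i) fun x hx hne => ?_⟩
  · obtain ⟨j, -, rfl⟩ := mem_image.1 hx
    exact arc_mem_lo _ _ _
  · obtain ⟨j, hj, rfl⟩ := mem_image.1 hx
    have h1 : j ≤ i := by simpa [Nat.lt_succ_iff] using hj
    have h2 : j < i := lt_of_le_of_ne h1 fun k => hne (k ▸ rfl)
    rw [← arc_succ, ← e j h1, ← arc_succ, e _ h2]

lemma Al_succ {ok : (ℕ → Fin T × Λ) → ℕ → Prop} {u : Fin T × Λ} {n : ℕ}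
    (h : run ex ey ok u ξ n) :
    Al ex ey ok u (n + 1) ξ = (range (n + 1)).image (arc ex ey u ξ) := by
  ext v
  simp only [mem_Al, mem_image, mem_range]
  exact exists_congr fun i => and_congr_right fun hi =>
    and_iff_right fun j hj => h j (by omega)

lemma gd_Al (g0 : ∀ ξ, Gd0 ∅ ξ) (r : Λ) (t : ℕ) (ξ : Fin T → Bool) :
    Gd0 (Al ex ey (okG ex ey Gd0 ws near r) (0, r) t ξ) ξ := by
  induction t with
  | zero => rw [Al_zero]; exact g0 ξ
  | succ t ih =>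
    by_cases h : run ex ey (okG ex ey Gd0 ws near r) (0, r) ξ t
    · rw [Al_succ h]; exact (h t le_rfl).2 ξ fun _ _ => rfl
    · convert ih using 1
      refine Subset.antisymm (fun v hv => ?_) (Al_mono t.le_succ ξ)
      obtain ⟨i, hi, ri, e⟩ := mem_Al.1 hv
      exact mem_Al.2 ⟨i, lt_of_le_of_ne (by omega) fun k => h (k ▸ ri), ri, e⟩

/-- geometry: zones `W r`, their anchors `Zt r`, far sets `F z`. -/
structure Zon (ex ey : Fin T → Λ) (ws : Fin T → Fin T) (near : Λ → Λ → Prop)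
    (Pr Pr2 : Fin T × Λ → Fin T × Λ → Prop) (W Zt : Λ → Finset (Fin T × Λ))
    (F : Fin T × Λ → Finset (Fin T × Λ)) (nZ n3 τ K0 : ℕ) : Prop where
  hws : ∀ s, ws s ≤ s
  hW : ∀ r v ξ, v ∉ W r → Pr (0, r) (Sg ex ey ξ v)
  hZ : ∀ r s x0, s ∈ tch ex ey (W r) → near x0 (ex s) ∨ near x0 (ey s) → (ws s, x0) ∈ Zt r
  cZ : ∀ r, (Zt r).card ≤ nZ
  c3 : ∀ z, (univ.filter fun r => z ∈ Zt r).card ≤ n3
  cT : ((univ.biUnion Zt).image Prod.fst).card ≤ τ
  hF : ∀ z, z ∉ F z ∧ (∀ f ∈ F z, Pr2 z f) ∧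
    ∃ s, (univ.filter fun x => (s, x) ∉ F z).card < K0

variable {W Zt : Λ → Finset (Fin T × Λ)} {F : Fin T × Λ → Finset (Fin T × Λ)} {nZ n3 τ K0 : ℕ}

lemma Zon.meet (Z : Zon ex ey ws near Pr Pr2 W Zt F nZ n3 τ K0) {z : Fin T × Λ}
    (h : K0 ≤ A.wind ex ey ξ z) : ¬ Disjoint (lo ex ey ξ z) (F z) := by
  intro k
  obtain ⟨s, hs⟩ := (Z.hF z).2.2
  refine absurd (hs.trans_le h) (not_lt.2 ?_)
  rw [← slice ξ z s]
  exact card_le_card (monotone_filter_right _ fun x _ hx => disjoint_left.1 k hx)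

lemma Zon.anc (Z : Zon ex ey ws near Pr Pr2 W Zt F nZ n3 τ K0) {v : Fin T × Λ} {r : Λ}
    (hc : Cls ex ey b Gd0 ws near L ξ v)
    (h : ¬ Disjoint (tch ex ey (lo ex ey ξ v)) (tch ex ey (W r))) :
    ∃ z ∈ Zt r, z ∈ lo ex ey ξ v := by
  obtain ⟨s, h1, h2⟩ := not_disjoint_iff.1 h
  obtain ⟨x, hx⟩ := exists_time ex ey ξ (o _ v) 0
  have hx' : (0, x) ∈ lo ex ey ξ v := mem_lo.2 hx
  rw [← lo_eq hx'] at h1 ⊢
  obtain ⟨k, -, x0, e, hn⟩ := anchor Z.hws (fun _ _ h => h)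
    (tch_mono ex ey (lo_sub_Al le_rfl (hc.slow x hx')) h1)
  exact ⟨_, Z.hZ r s x0 h2 hn, e ▸ arc_mem_lo _ _ _⟩

lemma Zon.mz (Z : Zon ex ey ws near Pr Pr2 W Zt F nZ n3 τ K0) {v : Fin T × Λ}
    (hc : Cls ex ey b Gd0 ws near L ξ v) :
    (univ.filter fun r => ¬ Disjoint (tch ex ey (lo ex ey ξ v)) (tch ex ey (W r))).card ≤
      τ * A.wind ex ey ξ v * n3 := by
  have sub : (univ.filter fun r => ¬ Disjoint (tch ex ey (lo ex ey ξ v)) (tch ex ey (W r))) ⊆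
      (((univ.biUnion Zt).image Prod.fst).biUnion fun s =>
        (univ.filter fun x : Λ => (s, x) ∈ lo ex ey ξ v).image (Prod.mk s)).biUnion
        fun z => univ.filter fun r => z ∈ Zt r := fun r hr => by
    obtain ⟨z, h1, h2⟩ := Z.anc hc (mem_filter.1 hr).2
    exact mem_biUnion.2 ⟨z, mem_biUnion.2 ⟨z.1, mem_image_of_mem _
      (mem_biUnion.2 ⟨r, mem_univ _, h1⟩), mem_image.2 ⟨z.2, mem_filter.2 ⟨mem_univ _, h2⟩, rfl⟩⟩,
      mem_filter.2 ⟨mem_univ _, h1⟩⟩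
  refine (card_le_card sub).trans ((card_biUnion_le_card_mul _ _ n3 fun z _ => Z.c3 z).trans
    (Nat.mul_le_mul_right _ ((card_biUnion_le_card_mul _ _ _ fun s _ =>
      card_image_le.trans (slice ξ v s).le).trans (Nat.mul_le_mul_right _ Z.cT))))

open Classical in
lemma Zon.cnt_le (Z : Zon ex ey ws near Pr Pr2 W Zt F nZ n3 τ K0) (hc : LF ex ey c)
    (hC : ∀ ξ v, c ξ v ≠ 0 → Cls ex ey b Gd0 ws near L ξ v) (r : Λ) (u : Fin T × Λ)
    (ξ : Fin T → Bool) : cnt ex ey c (tch ex ey (W r)) u ξ ≤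
      ∑ z ∈ Zt r, if c ξ z ≠ 0 ∧ u ∉ lo ex ey ξ z then 1 else 0 := by
  rw [← sum_fiberwise (Zt r) (o (Sg ex ey ξ))]
  refine sum_le_sum fun g _ => ?_
  beta_reduce
  split_ifs with h
  · obtain ⟨z, h1, h2⟩ := Z.anc (hC _ _ h.2.2) h.1
    refine le_trans ?_ (single_le_sum (f := fun z => if c ξ z ≠ 0 ∧ u ∉ lo ex ey ξ z then (1 : ℝ)
      else 0) (fun z _ => by split_ifs <;> norm_num)
      (mem_filter.2 ⟨h1, (mem_lo.1 h2).trans (o_bp g)⟩))
    rw [if_pos ⟨by rw [hc.of_mem h2]; exact h.2.2, by rw [lo_eq h2]; exact h.2.1⟩]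
  · exact sum_nonneg fun z _ => by split_ifs <;> norm_num

open Classical in
/-- **the hypotheses of `gram`**: long test loops; `c` long, or the crude touch bound. -/
theorem gh (I : Inp ex ey p b Gd0 Gd1 Pr γ ε L) (I2 : Inp ex ey p b Gd0 Gd1 Pr2 γ2 ε L)
    (hγ : γ2 ≤ γ) (Z : Zon ex ey ws near Pr Pr2 W Zt F nZ n3 τ K0)
    (hc : LF ex ey c) {K K' : ℕ} {q' : ℝ}
    (hA : ∀ ξ v, a ξ v ≠ 0 → Cls ex ey b Gd0 ws near L ξ v ∧ K0 ≤ A.wind ex ey ξ v)
    (hC : ∀ ξ v, c ξ v ≠ 0 → Cls ex ey b Gd0 ws near L ξ v ∧ A.wind ex ey ξ v ≤ K')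
    (hq : 1 ≤ q' ∨ (L * (γ2 + ε) ≤ q' ∧ ∀ ξ v, c ξ v ≠ 0 → K0 ≤ A.wind ex ey ξ v)) :
    Gh ex ey p (okG ex ey Gd0 ws near) K K' (τ * K' * n3) W a c (L * (γ + ε)) (nZ * q') := by
  have hP := pr_pb I.hp
  have q0 : 0 < L * (γ + ε) := mul_pos (zero_lt_one.trans_le I.L1) (by linarith [I.γ0, I.ε0])
  have h2 : ∀ r t ξ, run ex ey (okG ex ey Gd0 ws near r) (0, r) ξ t →
      t < per (Sg ex ey ξ) (0, r) → arc ex ey (0, r) ξ t ∉ W r →
      PH.P (pb p) (X ex ey (okG ex ey Gd0 ws near r) (0, r) (t + 1))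
        (fun ξ => if a ξ (0, r) = 0 then 0 else 1) ξ ≤ L * (γ + ε) := fun r t ξ k1 k2 k3 => by
    refine close I k1 k2 (gd_Al I.g0 r _ ξ) (by rw [arc_succ]; exact Z.hW r _ ξ k3) _
      (fun η => by split_ifs <;> norm_num) fun η _ => ?_
    split_ifs with h
    · exact mul_nonneg (zero_le_one.trans I.L1) (pr_nonneg (fun v => (I.hb.mem v).1) _)
    · exact (hA _ _ h).1.wt
  refine ⟨q0, fun r => ?_, fun r t ξ k1 k2 k3 => ⟨?_, h2 r t ξ k1 k2 k3⟩, fun r ξ => ?_,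
    fun ξ v h => (hC ξ v h).2, fun ξ v h => (Z.mz (hC ξ v h).1).trans ?_⟩
  · have := far I2 (I.g0 fun _ => false) (by rw [ends_empty]; omega) (Z.hF (0, r)).1
      (Z.hF (0, r)).2.1 (fun ξ => if a ξ (0, r) = 0 then 0 else 1)
      (fun η => by split_ifs <;> norm_num) fun η _ h => by
        have h' : a η (0, r) ≠ 0 := fun k => h (if_pos k)
        exact ⟨Z.meet (hA _ _ h').2, disjoint_empty_right _, (hA _ _ h').1.wt⟩
    rw [pin_empty] at this
    exact this.trans (mul_le_mul_of_nonneg_left (add_le_add hγ le_rfl) (zero_le_one.trans I.L1))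
  · have E := expl (ex := ex) (ey := ey) (u := (0, r)) (rule_okG (ex := ex) (ey := ey)
      (Gd0 := Gd0) (ws := ws) (near := near) r)
    refine (E.stop t).P_le hP (E.stop (t + 1)) (E.mono t) ξ fun η e => ?_
    have e1 := (run_iff (rule_okG r) e le_rfl).2 k1
    have e2 := agree e t le_rfl fun j hj => k1 j hj.le
    refine h2 r t _ e1 (not_le.1 fun z => ?_) (e2 ▸ k3)
    have := (mem_Al_iff e1).2 z
    rw [e2, Al_stop (rule_okG r) e, mem_Al_iff k1] at this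
    omega
  · refine (hP.P_mono (Z.cnt_le hc (fun ξ v h => (hC ξ v h).1) r (0, r)) ξ).trans ?_
    rw [PH.P_sum]
    have q1 : 0 ≤ q' := hq.elim (zero_le_one.trans ·) fun h =>
      (mul_nonneg (zero_le_one.trans I.L1) (add_nonneg I2.γ0.le I.ε0)).trans h.1
    refine (sum_le_card_nsmul _ _ q' fun z _ => ?_).trans ?_
    swap
    · rw [nsmul_eq_mul]
      exact mul_le_mul_of_nonneg_right (by exact_mod_cast Z.cZ r) q1
    rcases hq with h | h
    · refine le_trans ((hP.P_mono (g := fun _ => 1) (fun η => ?_) ξ).trans_eq (hP.P_const 1 ξ)) h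
      split_ifs <;> norm_num
    · rw [P_pin]
      refine (far I2 (gd_Al I.g0 r _ ξ) (ends_Al _ _ _ ξ) (Z.hF z).1 (Z.hF z).2.1 _
        (fun η => by split_ifs <;> norm_num) fun η k1 k2 => ?_).trans h.1
      have k3 : c η z ≠ 0 ∧ (0, r) ∉ lo ex ey η z := by
        by_contra k; exact k2 (if_neg k)
      refine ⟨Z.meet (h.2 _ _ k3.1), disjoint_left.2 fun w h1 h2 => k3.2 ?_, (hC _ _ k3.1).1.wt⟩
      rw [← Al_stop (rule_okG r) (Pw_pin_supp k1)] at h2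
      rw [← lo_eq h1, lo_eq (Al_sub_lo η _ _ h2)]
      exact self_mem_lo _ _
  · exact Nat.mul_le_mul_right _ (Nat.mul_le_mul_left _ (hC ξ v h).2)

end Crest.Agent.N337.Arc
end

-- ▼ part N337/L4/Crs
section

/-!
# Row 337, block (c) (helper96): `TK.Crs`, `TK.Hit` and the universal variance bound on the gas
-/

set_option autoImplicit false
set_option linter.unusedSectionVars false

namespace Crest.Agent.N337.Cr

open Finset Crest.Agent.N337.Rep Crest.Agent.N337.Arc Crest.Agent.N337.TK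
open Crest.Agent.N337.LY0 hiding Ph
open Crest.Agent.N337.Gas (Lp lp qq ub L)

variable {Λ : Type} [Fintype Λ] [DecidableEq Λ] {T : ℕ} [NeZero T]

/-- the class of loops: slow, winding `≤ Km`, weight `≥ 1 / L0`, all parts (with one step
changed) good. -/
structure CL (ex ey : Fin T → Λ) (b : Fin T × Λ → ℝ)
    (Gd0 : Finset (Fin T × Λ) → (Fin T → Bool) → Prop) (ws : Fin T → Fin T) (near : Λ → Λ → Prop)
    (L0 : ℝ) (Km : ℕ) (g : Lp T Λ) : Prop where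
  slow : Slw ex ey (spd ws near) g
  wind : wd g ≤ Km
  wt : 1 ≤ L0 * ub b g
  gd : ∀ ξ v, lp ex ey ξ v = g → ∀ O ⊆ g.2, ∀ ξ' w,
    (∀ x ∈ O, x ≠ w → Sg ex ey ξ' x = Sg ex ey ξ x) → Gd0 O ξ'

/-- `B` windows; `nb y` contains the slots near an edge at `y`. -/
structure Cel (ex ey : Fin T → Λ) (ws : Fin T → Fin T) (near : Λ → Λ → Prop) (nb : Λ → Finset Λ)
    (m0 B : ℕ) : Prop where
  hws : ∀ s, ws s ≤ s
  hB : (univ.image ws).card ≤ B
  mem : ∀ s x, near x (ex s) ∨ near x (ey s) → x ∈ nb (ex s)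
  c1 : ∀ y, (nb y).card ≤ m0
  c2 : ∀ x, (univ.filter fun y => x ∈ nb y).card ≤ m0

/-- constant of the variance bound of one winding class. -/
noncomputable def V0 (m0 B Km : ℕ) : ℝ := 96 * m0 * (Nat.log 2 (2 * Km * B * m0) + 1)

/-- the gain in the cross Gram bound. -/
noncomputable def κc (m0 B Km nZ n3 τ : ℕ) (q q2 δ : ℝ) : ℝ :=
  (Nat.log 2 Km + 1) ^ 2 * (q * (192 * V0 m0 B Km ^ 2 + 780) + 6 * q2 * (nZ * τ * n3) +
    δ * (2 * V0 m0 B Km ^ 2 + 2 + 3 * (nZ * τ * n3)))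

variable {ex ey : Fin T → Λ} {p : Fin T → ℝ} {b : Fin T × Λ → ℝ}
  {Gd0 Gd1 : Finset (Fin T × Λ) → (Fin T → Bool) → Prop} {Pr Pr2 : Fin T × Λ → Fin T × Λ → Prop}
  {γ γ2 ε L0 δ : ℝ} {ws : Fin T → Fin T} {near : Λ → Λ → Prop} {nb : Λ → Finset Λ}
  {W Zt : Λ → Finset (Fin T × Λ)} {F : Fin T × Λ → Finset (Fin T × Λ)}
  {m0 B Km nZ n3 τ k0 k j : ℕ} {a c D : Lp T Λ → ℝ} {g : Lp T Λ} {ξ : Fin T → Bool}

lemma lf_lp (a : Lp T Λ → ℝ) : LF ex ey fun ξ v => a (lp ex ey ξ v) :=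
  ⟨fun ξ v => by rw [Gas.lp_eq_iff.2 (o_apply _ v)],
    fun ξ ξ' v h => by rw [Gas.lp_congr fun s hs => h s ((mem_tch ex ey).2 hs)]⟩

lemma Ph_eq (a : Lp T Λ → ℝ) : Ph ex ey a = Phi ex ey fun ξ v => a (lp ex ey ξ v) :=
  funext fun ξ => Gas.sum_L ξ a

lemma wd_lp (ξ : Fin T → Bool) (v : Fin T × Λ) : wd (lp ex ey ξ v) = A.wind ex ey ξ v :=
  (wind_eq ξ v).symm

lemma wd_pos (h : g ∈ L ex ey ξ) : 0 < wd g := by
  obtain ⟨v, rfl⟩ := Gas.mem_L.1 h
  rw [wd_lp]; exact wind_pos ξ v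

lemma CL.cls {v : Fin T × Λ} (h : CL ex ey b Gd0 ws near L0 Km (lp ex ey ξ v)) :
    Cls ex ey b Gd0 ws near L0 ξ v :=
  ⟨fun r hr => h.slow ξ r (Gas.lp_eq_iff.2 (mem_lo.1 hr)), h.wt, h.gd ξ v rfl⟩

lemma qq_ne (hp : ∀ s, 0 ≤ p s ∧ p s ≤ 1) (h : Pw p ξ ≠ 0) (hg : g ∈ L ex ey ξ) :
    qq ex ey p {g} ≠ 0 := by
  refine (sum_pos' (fun η _ => mul_nonneg (Pw_nonneg hp η) (by split_ifs <;> norm_num))
    ⟨ξ, mem_univ _, ?_⟩).ne'
  rw [if_pos (singleton_subset_iff.2 hg), mul_one]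
  exact (Pw_nonneg hp ξ).lt_of_ne h.symm

/-- **HIT.** -/
theorem hit (I : Inp ex ey p b Gd0 Gd1 Pr γ ε L0) {Z : Λ → Finset Λ} {G : Lp T Λ → Prop}
    (hZ : ∀ r v ξ, v.2 ∉ Z r → Pr (0, r) (Sg ex ey ξ v))
    (hG : ∀ g, G g → qq ex ey p {g} ≠ 0 → CL ex ey b Gd0 ws near L0 Km g) :
    Hit ex ey (spd ws near) Z p G (L0 * (γ + ε)) := by
  intro r ξ n h0 h1 h2 h3
  have k := (hG _ h1 (qq_ne I.hp h0 (Gas.lp_mem_L ξ _))).cls
  refine close I (fun i _ => k.slow r (self_mem_lo _ _) i) h2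
    (k.gd _ (Al_sub_lo _ _ _) ξ (0, r) fun _ _ _ => rfl) (by rw [arc_succ]; exact hZ r _ ξ h3) _
    (fun η => by unfold i1; split_ifs <;> norm_num) fun η hη => ?_
  unfold i1; split_ifs with h
  · exact (hG _ h (qq_ne I.hp (supp_pin h0 hη) (Gas.lp_mem_L η _))).cls.wt
  · exact mul_nonneg (zero_le_one.trans I.L1) (pr_nonneg (fun v => (I.hb.mem v).1) _)

variable (ex ey p) in
/-- mean of a linear statistic. -/
noncomputable def nm (a : Lp T Λ → ℝ) : ℝ := EP p (Ph ex ey a)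

variable (ex ey p) in
/-- the off-diagonal covariance. -/
noncomputable def er (a c : Lp T Λ → ℝ) : ℝ :=
  EP p (fun ξ => Ph ex ey a ξ * Ph ex ey c ξ) - nm ex ey p a * nm ex ey p c -
    nm ex ey p fun g => a g * c g

lemma er_comm (a c : Lp T Λ → ℝ) : er ex ey p a c = er ex ey p c a := by
  simp only [er, mul_comm]

lemma nm_mono (hp : ∀ s, 0 ≤ p s ∧ p s ≤ 1) (h : ∀ g, 0 < wd g → a g ≤ c g) :
    nm ex ey p a ≤ nm ex ey p c :=
  (pr_pb hp).ex_mono fun _ => sum_le_sum fun g hg => h g (wd_pos hg)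

lemma nm_nn (hp : ∀ s, 0 ≤ p s ∧ p s ≤ 1) (h : ∀ g, 0 ≤ a g) : 0 ≤ nm ex ey p a :=
  (pr_pb hp).ex_nn fun _ => sum_nonneg fun g _ => h g

lemma nm_mul (t : ℝ) (a : Lp T Λ → ℝ) : (nm ex ey p fun g => t * a g) = t * nm ex ey p a := by
  rw [nm, nm, EP, EP, ← PH.ex_mul]
  congr 1; funext ξ; simp only [Ph, mul_sum]

lemma Ph_sum (s : Finset ℕ) (a : ℕ → Lp T Λ → ℝ) :
    (Ph ex ey fun g => ∑ k ∈ s, a k g) = fun ξ => ∑ k ∈ s, Ph ex ey (a k) ξ :=
  funext fun _ => sum_comm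

lemma nm_sum (s : Finset ℕ) (a : ℕ → Lp T Λ → ℝ) :
    (nm ex ey p fun g => ∑ k ∈ s, a k g) = ∑ k ∈ s, nm ex ey p (a k) := by
  rw [nm, Ph_sum, EP, PH.ex_sum]; rfl

lemma er_sum (s : Finset ℕ) (a : ℕ → Lp T Λ → ℝ) (c : Lp T Λ → ℝ) :
    er ex ey p (fun g => ∑ k ∈ s, a k g) c = ∑ k ∈ s, er ex ey p (a k) c := by
  simp only [er, Ph_sum, nm_sum, sum_mul, sum_sub_distrib, EP, PH.ex_sum]

lemma er_eq (a c : Lp T Λ → ℝ) : er ex ey p a c =
    EP p (fun ξ => Ph ex ey a ξ * (Ph ex ey c ξ - EP p (Ph ex ey c))) -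
      EP p (Ph ex ey fun g => a g * c g) := by
  simp only [mul_sub, EP, PH.ex_sub, mul_comm (Ph ex ey a _) (PH.ex _ _), PH.ex_mul, er, nm]
  ring

lemma Cel.shr (C : Cel ex ey ws near nb m0 B) {oks : Λ → (ℕ → Fin T × Λ) → ℕ → Prop}
    (hr : ∀ r, Rule (oks r)) (hok : ∀ r a i, oks r a i → spd ws near a i) (hk : 2 ^ k ≤ Km) :
    Shr ex ey (fun s => (ws s, ex s)) oks (2 ^ (k + 1)) (2 ^ (k + 1) * m0 : ℕ)
      (2 * Km * B * m0) := by
  have H := shr_of (ex := ex) (ey := ey) (cl := fun s => (ws s, ex s)) hr C.hws hok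
    (fun c => (nb c.2).image (Prod.mk c.1)) (fun c => card_image_le.trans (C.c1 _))
    (fun s x h => mem_image_of_mem _ (C.mem s x h)) C.hB
    (fun v => (univ.filter fun y => v.2 ∈ nb y).image (Prod.mk v.1))
    (fun v => card_image_le.trans (C.c2 _))
    (fun s x h => mem_image_of_mem _ (mem_filter.2 ⟨mem_univ _, C.mem s x h⟩)) (2 ^ (k + 1))
  refine ⟨H.expl, H.zero, H.pos, H.m0, H.mult, fun r hr ω => (H.card r hr ω).trans ?_⟩
  rw [pow_succ']; gcongr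

lemma log_lt (h : Nat.log 2 (wd g) = k) : wd g < 2 ^ (k + 1) :=
  h ▸ Nat.lt_pow_succ_log_self one_lt_two _

lemma le_log (h : Nat.log 2 (wd g) = k) (h0 : 0 < wd g) : 2 ^ k ≤ wd g :=
  h ▸ Nat.pow_log_le_self 2 h0.ne'

lemma nm_div (hp : ∀ s, 0 ≤ p s ∧ p s ≤ 1) (h : ∀ g, a g ≠ 0 → Nat.log 2 (wd g) = k) :
    2 ^ k * (nm ex ey p fun g => a g ^ 2 / wd g) ≤ nm ex ey p fun g => a g ^ 2 := by
  rw [← nm_mul]
  refine nm_mono hp fun g h0 => ?_
  by_cases z : a g = 0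
  · simp [z]
  have h1 : (2 : ℝ) ^ k ≤ wd g := by exact_mod_cast le_log (h g z) h0
  have h2 : (0 : ℝ) < wd g := by exact_mod_cast h0
  rw [← mul_div_assoc, div_le_iff₀ h2, mul_comm]
  exact mul_le_mul_of_nonneg_left h1 (sq_nonneg _)

lemma V0_nn (m0 B Km : ℕ) : 0 ≤ V0 m0 B Km := by unfold V0; positivity

/-- variance bound for one class. -/
theorem var_cls (hp : ∀ s, 0 ≤ p s ∧ p s ≤ 1) (C : Cel ex ey ws near nb m0 B) (hk : 2 ^ k ≤ Km)
    (h : ∀ g, c g ≠ 0 → Slw ex ey (spd ws near) g ∧ Nat.log 2 (wd g) = k) :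
    PH.var (pb p) (Ph ex ey c) ≤ V0 m0 B Km * nm ex ey p fun g => c g ^ 2 := by
  have k1 := tk0 hp (fun _ => rule_spd ws near)
    (C.shr (fun _ => rule_spd ws near) (fun _ _ _ h => h) hk) (lf_lp c) fun r ξ z =>
      ⟨by rw [← wd_lp]; exact (log_lt (h _ z).2).le, (h _ z).1 ξ r rfl⟩
  simp only [← wd_lp] at k1
  rw [← Ph_eq, ← Ph_eq fun g => c g ^ 2 / wd g] at k1
  refine k1.trans (le_trans (le_of_eq ?_)
    (mul_le_mul_of_nonneg_left (nm_div hp fun g z => (h g z).2) (V0_nn _ _ _)))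
  rw [V0, nm]; push_cast; ring

open Classical in
/-- the part of `a` in the winding class `k`. -/
noncomputable def cl (k : ℕ) (a : Lp T Λ → ℝ) (g : Lp T Λ) : ℝ :=
  if Nat.log 2 (wd g) = k then a g else 0

lemma cl_ne (h : cl k a g ≠ 0) : a g ≠ 0 ∧ Nat.log 2 (wd g) = k := by
  unfold cl at h; split_ifs at h with e; exacts [⟨h, e⟩, absurd rfl h]

lemma sum_cl (h : ∀ g, a g ≠ 0 → wd g ≤ Km) :
    a = fun g => ∑ k ∈ range (Nat.log 2 Km + 1), cl k a g := by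
  funext g
  simp only [cl, sum_ite_eq, mem_range]
  split_ifs with e
  · rfl
  · by_contra z
    exact e (Nat.lt_succ_of_le (Nat.log_mono_right (h g z)))

lemma pow_le_Km (h0 : Km ≠ 0) (hk : k ∈ range (Nat.log 2 Km + 1)) : 2 ^ k ≤ Km :=
  (Nat.pow_le_pow_right two_pos (Nat.lt_succ_iff.1 (mem_range.1 hk))).trans
    (Nat.pow_log_le_self 2 h0)

lemma nm_cl (h : ∀ g, a g ≠ 0 → wd g ≤ Km) (D : Lp T Λ → ℝ) :
    ∑ k ∈ range (Nat.log 2 Km + 1), (nm ex ey p fun g => cl k a g ^ 2 * D g) =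
      nm ex ey p fun g => a g ^ 2 * D g := by
  rw [← nm_sum, sum_cl (a := fun g => a g ^ 2 * D g) (Km := Km) fun g z => h g fun k => z (by simp [k])]
  congr 1; funext g
  refine sum_congr rfl fun k _ => ?_
  unfold cl; split_ifs <;> simp


/-- crude bound. -/
lemma er_crude (hp : ∀ s, 0 ≤ p s ∧ p s ≤ 1) (a c : Lp T Λ → ℝ) : er ex ey p a c ^ 2 ≤
    2 * (PH.var (pb p) (Ph ex ey a) * PH.var (pb p) (Ph ex ey c)) +
      2 * ((nm ex ey p fun g => a g ^ 2) * nm ex ey p fun g => c g ^ 2) := by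
  have hP := pr_pb hp
  have h1 := hP.cs (fun ξ => Ph ex ey a ξ - EP p (Ph ex ey a)) fun ξ => Ph ex ey c ξ - EP p (Ph ex ey c)
  have h2 : (nm ex ey p fun g => a g * c g) ^ 2 ≤
      (nm ex ey p fun g => a g ^ 2) * nm ex ey p fun g => c g ^ 2 := by
    refine sum_sq_le_sum_mul_sum_of_sq_le_mul _
      (fun ξ _ => mul_nonneg (hP.w_nn ξ) (sum_nonneg fun _ _ => sq_nonneg _))
      (fun ξ _ => mul_nonneg (hP.w_nn ξ) (sum_nonneg fun _ _ => sq_nonneg _)) fun ξ _ => ?_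
    rw [mul_pow, mul_mul_mul_comm, ← sq]
    exact mul_le_mul_of_nonneg_left (sum_mul_sq_le_sq_mul_sq _ _ _) (sq_nonneg _)
  have e : PH.ex (pb p) (fun ξ => (Ph ex ey a ξ - EP p (Ph ex ey a)) *
      (Ph ex ey c ξ - EP p (Ph ex ey c))) = er ex ey p a c + nm ex ey p fun g => a g * c g := by
    simp only [sub_mul, mul_sub, EP, PH.ex_sub, mul_comm (Ph ex ey a _) (PH.ex _ _), PH.ex_mul,
      hP.ex_const, er, nm]
    ring
  rw [e] at h1
  change _ ≤ PH.var (pb p) (Ph ex ey a) * PH.var (pb p) (Ph ex ey c) at h1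
  nlinarith [sq_nonneg (er ex ey p a c + 2 * nm ex ey p fun g => a g * c g)]

/-- Gram bound for two classes, the loops of `a` being explored. -/
theorem gram_cls (I : Inp ex ey p b Gd0 Gd1 Pr γ ε L0)
    (I2 : Inp ex ey p b Gd0 Gd1 Pr2 γ2 ε L0) (hγ : γ2 ≤ γ) (C : Cel ex ey ws near nb m0 B)
    (Z : Zon ex ey ws near Pr Pr2 W Zt F nZ n3 τ (2 ^ k0)) (hk : 2 ^ k ≤ Km) (hj : 2 ^ j ≤ Km)
    (ha : ∀ g, a g ≠ 0 → CL ex ey b Gd0 ws near L0 Km g ∧ Nat.log 2 (wd g) = k)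
    (hc : ∀ g, c g ≠ 0 → CL ex ey b Gd0 ws near L0 Km g ∧ Nat.log 2 (wd g) = j) (hk0 : k0 ≤ k)
    {q' : ℝ} (hq : 1 ≤ q' ∨ (L0 * (γ2 + ε) ≤ q' ∧ k0 ≤ j)) :
    er ex ey p a c ^ 2 ≤ 3 * (nm ex ey p fun g => a g ^ 2 / wd g) *
      ((2 ^ k * (64 * (L0 * (γ + ε)) * V0 m0 B Km ^ 2) + 2 ^ j * (260 * (L0 * (γ + ε)) +
        2 * q' * (nZ * τ * n3))) * nm ex ey p fun g => c g ^ 2) := by
  have lg : ∀ {i : ℕ} {ξ v}, k0 ≤ i → Nat.log 2 (wd (lp ex ey ξ v)) = i →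
      2 ^ k0 ≤ A.wind ex ey ξ v := fun h1 h2 => by
    rw [← wd_lp]
    exact (Nat.pow_le_pow_right two_pos h1).trans (le_log h2 (wd_pos (Gas.lp_mem_L _ _)))
  have G := gh (K := 2 ^ (k + 1)) (K' := 2 ^ (j + 1)) (a := fun ξ v => a (lp ex ey ξ v)) I I2 hγ Z
    (lf_lp c)
    (fun ξ v z => ⟨(ha _ z).1.cls, lg hk0 (ha _ z).2⟩)
    (fun ξ v z => ⟨(hc _ z).1.cls, by rw [← wd_lp]; exact (log_lt (hc _ z).2).le⟩)
    (hq.imp_right fun h => ⟨h.1, fun ξ v z => lg h.2 (hc _ z).2⟩)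
  have k1 := gram I.hp rule_okG (C.shr rule_okG (fun _ _ _ h => h.1) hk) (lf_lp a) (lf_lp c)
    (fun r ξ z => ⟨by rw [← wd_lp]; exact (log_lt (ha _ z).2).le, (ha _ z).1.cls.ok⟩) G
  simp only [← wd_lp] at k1
  rw [← Ph_eq, ← Ph_eq, ← Ph_eq fun g => a g ^ 2 / wd g, ← Ph_eq fun g => a g * c g,
    ← Ph_eq fun g => c g ^ 2, ← er_eq] at k1
  refine k1.trans (mul_le_mul_of_nonneg_left ?_
    (mul_nonneg (by norm_num) (nm_nn I.hp fun g => by positivity)))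
  have q0 := G.q0
  have v := mul_le_mul_of_nonneg_left (var_cls I.hp C hj fun g z => ⟨(hc g z).1.slow, (hc g z).2⟩)
    (show 0 ≤ 2 ^ k * (64 * (L0 * (γ + ε)) * V0 m0 B Km) by have := V0_nn m0 B Km; positivity)
  refine le_trans (le_of_eq ?_) ((add_le_add v (le_refl (2 ^ j * (260 * (L0 * (γ + ε)) +
    2 * q' * (nZ * τ * n3)) * nm ex ey p fun g => c g ^ 2))).trans_eq (by ring))
  rw [V0, nm]; push_cast; ring

/-- one pair of classes. -/
theorem pair (I : Inp ex ey p b Gd0 Gd1 Pr γ ε L0)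
    (I2 : Inp ex ey p b Gd0 Gd1 Pr2 γ2 ε L0) (hγ : γ2 ≤ γ) (C : Cel ex ey ws near nb m0 B)
    (Z : Zon ex ey ws near Pr Pr2 W Zt F nZ n3 τ (2 ^ k0)) (hD : ∀ g, 0 ≤ D g ∧ D g ≤ 1) (δ0 : 0 ≤ δ)
    (hδ : k0 ≠ 0 → ∀ g, D g * 2 ^ k0 ≤ δ * wd g) (hk : 2 ^ k ≤ Km) (hj : 2 ^ j ≤ Km)
    (ha : ∀ g, a g ≠ 0 → CL ex ey b Gd0 ws near L0 Km g ∧ Nat.log 2 (wd g) = k)
    (hc : ∀ g, c g ≠ 0 → CL ex ey b Gd0 ws near L0 Km g ∧ Nat.log 2 (wd g) = j) :
    er ex ey p (fun g => a g * D g) c ^ 2 ≤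
      (L0 * (γ + ε) * (192 * V0 m0 B Km ^ 2 + 780) + 6 * (L0 * (γ2 + ε)) * (nZ * τ * n3) +
        δ * (2 * V0 m0 B Km ^ 2 + 2 + 3 * (nZ * τ * n3))) *
      ((nm ex ey p fun g => a g ^ 2 * D g) * nm ex ey p fun g => c g ^ 2) := by
  have q0 : 0 < L0 * (γ + ε) := mul_pos (zero_lt_one.trans_le I.L1) (by linarith [I.γ0, I.ε0])
  have q20 : 0 < L0 * (γ2 + ε) := mul_pos (zero_lt_one.trans_le I.L1) (by linarith [I2.γ0, I.ε0])
  set q := L0 * (γ + ε) with hq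
  set q2 := L0 * (γ2 + ε) with hq2
  have V := V0_nn m0 B Km
  set N : ℝ := nZ * τ * n3 with hN
  have N0 : 0 ≤ N := by positivity
  have ha' : ∀ g, a g * D g ≠ 0 → CL ex ey b Gd0 ws near L0 Km g ∧ Nat.log 2 (wd g) = k :=
    fun g z => ha g (left_ne_zero_of_mul z)
  have A0 : 0 ≤ nm ex ey p fun g => a g ^ 2 * D g :=
    nm_nn I.hp fun g => mul_nonneg (sq_nonneg _) (hD g).1
  have C0 : 0 ≤ nm ex ey p fun g => c g ^ 2 := nm_nn I.hp fun g => sq_nonneg _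
  have A1 : (nm ex ey p fun g => (a g * D g) ^ 2) ≤ nm ex ey p fun g => a g ^ 2 * D g :=
    nm_mono I.hp fun g _ => by
      rw [mul_pow, sq (D g), ← mul_assoc]
      exact mul_le_of_le_one_right (mul_nonneg (sq_nonneg _) (hD g).1) (hD g).2
  have X0 : ∀ a : Lp T Λ → ℝ, 0 ≤ nm ex ey p fun g => a g ^ 2 / wd g := fun a =>
    nm_nn I.hp fun g => by positivity
  generalize hA : (nm ex ey p fun g => a g ^ 2 * D g) = x at A0 A1 ⊢
  generalize hB : (nm ex ey p fun g => c g ^ 2) = y at C0 ⊢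
  have xy := mul_nonneg A0 C0
  by_cases h1 : k < k0
  · have A2 : (nm ex ey p fun g => (a g * D g) ^ 2) ≤ δ * x := by
      rw [← hA, ← nm_mul]
      refine nm_mono I.hp fun g _ => ?_
      by_cases z : a g = 0
      · simp [z]
      have h2 : (wd g : ℝ) ≤ 2 ^ k0 := by
        exact_mod_cast (log_lt (ha g z).2).le.trans (Nat.pow_le_pow_right two_pos h1)
      have h3 : D g ≤ δ := le_of_mul_le_mul_right ((hδ (by omega) g).trans
        (mul_le_mul_of_nonneg_left h2 δ0)) (by positivity)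
      rw [mul_pow, sq (D g), ← mul_assoc, mul_comm δ]
      exact mul_le_mul_of_nonneg_left h3 (mul_nonneg (sq_nonneg _) (hD g).1)
    have v1 := (var_cls I.hp C hk fun g z => ⟨(ha' g z).1.slow, (ha' g z).2⟩).trans
      (mul_le_mul_of_nonneg_left A2 V)
    have v2 := var_cls I.hp C hj fun g z => ⟨(hc g z).1.slow, (hc g z).2⟩
    have v3 := mul_le_mul v1 v2 ((pr_pb I.hp).nsq_nn _) (by positivity)
    have v4 := er_crude (ex := ex) (ey := ey) I.hp (fun g => a g * D g) c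
    rw [hB] at v3 v4
    have v5 := mul_le_mul_of_nonneg_right A2 C0
    have : 0 ≤ (q * (192 * V0 m0 B Km ^ 2 + 780) + 6 * q2 * N + δ * (3 * N)) * (x * y) := by positivity
    nlinarith
  rw [not_lt] at h1
  have X1 := (nm_div I.hp fun g z => (ha' g z).2).trans A1
  by_cases h2 : j < k0
  · have k1 := gram_cls I I2 hγ C Z hk hj ha' hc h1 (q' := 1) (Or.inl le_rfl)
    have X2 : 2 * 2 ^ j * (nm ex ey p fun g => (a g * D g) ^ 2 / wd g) ≤ δ * x := by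
      rw [← hA, ← nm_mul, ← nm_mul]
      refine nm_mono I.hp fun g h0 => ?_
      have h3 : (0 : ℝ) < wd g := by exact_mod_cast h0
      have h4 : (2 : ℝ) * 2 ^ j ≤ 2 ^ k0 := by
        rw [← pow_succ']; exact pow_le_pow_right₀ one_le_two h2
      have h5 := (mul_le_mul_of_nonneg_left h4 (hD g).1).trans (hδ (by omega) g)
      rw [← mul_div_assoc, div_le_iff₀ h3]
      have := mul_le_mul_of_nonneg_left h5 (mul_nonneg (sq_nonneg (a g)) (hD g).1)
      nlinarith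
    have X3 : 2 ^ j * (nm ex ey p fun g => (a g * D g) ^ 2 / wd g) ≤ x :=
      (mul_le_mul_of_nonneg_right (pow_le_pow_right₀ one_le_two (by omega)) (X0 _)).trans X1
    rw [hB, ← hq, ← hN] at k1
    have t1 := mul_le_mul_of_nonneg_left X1 (show 0 ≤ 192 * q * V0 m0 B Km ^ 2 * y by positivity)
    have t2 := mul_le_mul_of_nonneg_left X3 (show 0 ≤ 780 * q * y by positivity)
    have t3 := mul_le_mul_of_nonneg_left X2 (show 0 ≤ 3 * N * y by positivity)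
    have : 0 ≤ (6 * q2 * N + δ * (2 * V0 m0 B Km ^ 2 + 2)) * (x * y) := by positivity
    nlinarith
  rw [not_lt] at h2
  have key : ∀ {X u v : ℝ} {k j : ℕ}, j ≤ k → 0 ≤ X → 0 ≤ v → 2 ^ k * X ≤ u → u * v ≤ x * y →
      3 * X * ((2 ^ k * (64 * q * V0 m0 B Km ^ 2) + 2 ^ j * (260 * q + 2 * q2 * N)) * v) ≤
      (q * (192 * V0 m0 B Km ^ 2 + 780) + 6 * q2 * N + δ * (2 * V0 m0 B Km ^ 2 + 2 + 3 * N)) *
        (x * y) := by
    intro X u v k j h hX hv h1 h2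
    have h3 : 2 ^ j * X ≤ u :=
      (mul_le_mul_of_nonneg_right (pow_le_pow_right₀ one_le_two h) hX).trans h1
    have t1 := mul_le_mul_of_nonneg_left h1 (show 0 ≤ 192 * q * V0 m0 B Km ^ 2 * v by positivity)
    have t2 := mul_le_mul_of_nonneg_left h3 (show 0 ≤ (780 * q + 6 * q2 * N) * v by positivity)
    have t3 := mul_le_mul_of_nonneg_left h2
      (show 0 ≤ q * (192 * V0 m0 B Km ^ 2 + 780) + 6 * q2 * N by positivity)
    have : 0 ≤ δ * (2 * V0 m0 B Km ^ 2 + 2 + 3 * N) * (x * y) := by positivity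
    nlinarith
  rcases le_total j k with h3 | h3
  · refine (gram_cls I I2 hγ C Z hk hj ha' hc h1 (Or.inr ⟨le_rfl, h2⟩)).trans ?_
    rw [hB]; exact key h3 (X0 _) C0 X1 le_rfl
  · rw [er_comm]
    refine (gram_cls I I2 hγ C Z hj hk hc ha' h2 (Or.inr ⟨le_rfl, h1⟩)).trans
      (key h3 (X0 _) (nm_nn I.hp fun g => sq_nonneg _) (nm_div I.hp fun g z => (hc g z).2) ?_)
    rw [hB, mul_comm]; exact mul_le_mul_of_nonneg_right A1 C0

lemma crs_supp (hp : ∀ s, 0 ≤ p s ∧ p s ≤ 1) {S : Lp T Λ → Prop} {κ : ℝ}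
    (h : Crs ex ey p (fun g => S g ∧ qq ex ey p {g} ≠ 0) D κ) : Crs ex ey p S D κ := by
  classical
  intro a c ha hc
  have sup : ∀ a : Lp T Λ → ℝ, (∀ g, a g ≠ 0 → S g) → ∃ a' : Lp T Λ → ℝ,
      (∀ g, a' g ≠ 0 → S g ∧ qq ex ey p {g} ≠ 0) ∧ ∀ g, qq ex ey p {g} ≠ 0 → a' g = a g :=
    fun a ha => ⟨fun g => if qq ex ey p {g} = 0 then 0 else a g, fun g z => by
      beta_reduce at z
      split_ifs at z with e; exacts [absurd rfl z, ⟨ha g z, e⟩], fun g y => if_neg y⟩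
  obtain ⟨a', ha1, ha2⟩ := sup a ha
  obtain ⟨c', hc1, hc2⟩ := sup c hc
  have k := h a' c' ha1 hc1
  have e1 : ∀ f g : (Fin T → Bool) → ℝ, (∀ ξ, Pw p ξ ≠ 0 → f ξ = g ξ) →
      Op.ex (Pw p) f = Op.ex (Pw p) g := fun f g h => sum_congr rfl fun ξ _ => by
    by_cases z : Pw p ξ = 0
    · simp [z]
    · rw [h ξ z]
  have e2 : ∀ (f f' : Lp T Λ → ℝ) ξ, Pw p ξ ≠ 0 → (∀ g, qq ex ey p {g} ≠ 0 → f g = f' g) →
      Ph ex ey f ξ = Ph ex ey f' ξ := fun f f' ξ z h =>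
    sum_congr rfl fun g hg => h g (qq_ne hp z hg)
  have e3 : ∀ f f' : Lp T Λ → ℝ, (∀ g, qq ex ey p {g} ≠ 0 → f g = f' g) →
      Op.ex (Pw p) (Ph ex ey f) = Op.ex (Pw p) (Ph ex ey f') := fun f f' h =>
    e1 _ _ fun ξ z => e2 f f' ξ z h
  rwa [e1 (fun ξ => Ph ex ey (fun g => a' g * D g) ξ * Ph ex ey c' ξ)
      (fun ξ => Ph ex ey (fun g => a g * D g) ξ * Ph ex ey c ξ) fun ξ z => by
      rw [e2 (fun g => a' g * D g) (fun g => a g * D g) ξ z fun g y => by rw [ha2 g y],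
        e2 c' c ξ z hc2],
    e3 (fun g => a' g * D g) (fun g => a g * D g) fun g y => by rw [ha2 g y], e3 c' c hc2,
    e3 (fun g => a' g * D g * c' g) (fun g => a g * D g * c g) fun g y => by rw [ha2 g y, hc2 g y],
    e3 (fun g => a' g ^ 2 * D g) (fun g => a g ^ 2 * D g) fun g y => by rw [ha2 g y],
    e3 (fun g => c' g ^ 2) (fun g => c g ^ 2) fun g y => by rw [hc2 g y]] at k

/-- **the cross Gram bound.** -/
theorem crs (I : Inp ex ey p b Gd0 Gd1 Pr γ ε L0)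
    (I2 : Inp ex ey p b Gd0 Gd1 Pr2 γ2 ε L0) (hγ : γ2 ≤ γ) (C : Cel ex ey ws near nb m0 B)
    (Z : Zon ex ey ws near Pr Pr2 W Zt F nZ n3 τ (2 ^ k0)) (hD : ∀ g, 0 ≤ D g ∧ D g ≤ 1) (δ0 : 0 ≤ δ)
    (hδ : k0 ≠ 0 → ∀ g, D g * 2 ^ k0 ≤ δ * wd g) (h0 : Km ≠ 0) {S : Lp T Λ → Prop}
    (hS : ∀ g, S g → qq ex ey p {g} ≠ 0 → CL ex ey b Gd0 ws near L0 Km g) :
    Crs ex ey p S D (κc m0 B Km nZ n3 τ (L0 * (γ + ε)) (L0 * (γ2 + ε)) δ) := by
  refine crs_supp I.hp fun a c ha hc => ?_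
  have ha' : ∀ g, a g ≠ 0 → CL ex ey b Gd0 ws near L0 Km g := fun g z => hS g (ha g z).1 (ha g z).2
  have hc' : ∀ g, c g ≠ 0 → CL ex ey b Gd0 ws near L0 Km g := fun g z => hS g (hc g z).1 (hc g z).2
  change er ex ey p (fun g => a g * D g) c ^ 2 ≤ _ * nm ex ey p _ * nm ex ey p _
  have e := nm_cl (ex := ex) (ey := ey) (p := p) (fun g z => (hc' g z).wind) fun _ => 1
  simp only [mul_one] at e
  have e1 : (fun g => a g * D g) = fun g => ∑ k ∈ range (Nat.log 2 Km + 1), cl k a g * D g := by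
    funext g; rw [← sum_mul, ← congrFun (sum_cl fun g z => (ha' g z).wind) g]
  rw [← e, ← nm_cl (fun g z => (ha' g z).wind) D, e1, er_sum, mul_assoc, sum_mul_sum, κc]
  conv_lhs => rw [sum_cl fun g z => (hc' g z).wind]
  simp only [er_comm _ fun g => ∑ k ∈ _, cl k c g, er_sum]
  rw [← sum_product', ← sum_product', mul_assoc, mul_sum]
  refine sq_sum_le_card_mul_sum_sq.trans (mul_le_mul (le_of_eq ?_) (sum_le_sum fun z hz => ?_)
    (sum_nonneg fun _ _ => sq_nonneg _) (by positivity))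
  · rw [card_product, card_range]; push_cast; ring
  · rw [er_comm]
    exact pair I I2 hγ C Z hD δ0 hδ (pow_le_Km h0 (mem_product.1 hz).1) (pow_le_Km h0 (mem_product.1 hz).2)
      (fun g y => ⟨ha' g (cl_ne y).1, (cl_ne y).2⟩) fun g y => ⟨hc' g (cl_ne y).1, (cl_ne y).2⟩

end Crest.Agent.N337.Cr
end

-- ▼ part N337/C9/Geo

/-!
# Row 337, C9 (helper96): cells, zones and speed limits from a metric on the slots
-/

set_option autoImplicit false
set_option linter.unusedSectionVars false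

namespace Crest.Agent.N337.C9

open Finset Equiv Crest.Agent.N337.Rep Crest.Agent.N337.Arc Crest.Agent.N337.Cr
open Crest.Agent.N337.A (Met Path Slow)
open Crest.Agent.N337.Gas (Lp lp)

variable {Λ : Type} [Fintype Λ] [DecidableEq Λ] {T : ℕ} [NeZero T]

/-- balls of slots. -/
def bal (d : Λ → Λ → ℕ) (r : ℕ) (x : Λ) : Finset Λ := univ.filter fun y => d x y ≤ r
/-- volume bound. -/
def Vol (d : Λ → Λ → ℕ) (V : ℕ → ℕ) : Prop := ∀ r x, (bal d r x).card ≤ V r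
/-- displacement at most `v`. -/
def nr (d : Λ → Λ → ℕ) (v : ℕ) (x y : Λ) : Prop := d x y ≤ v
/-- start of the window (windows of `D` steps; `D = T`: one window). -/
def wsD (D : ℕ) (s : Fin T) : Fin T := ⟨s / D * D, (Nat.div_mul_le_self _ _).trans_lt s.2⟩
/-- far pairs (target `z`, source `f`). -/
def PrD (d : Λ → Λ → ℕ) (R : ℕ) (z f : Fin T × Λ) : Prop := R ≤ d z.2 f.2
/-- far or late pairs. -/
def PrT (d : Λ → Λ → ℕ) (R t : ℕ) (z f : Fin T × Λ) : Prop :=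
  z ≠ f ∧ (R ≤ d z.2 f.2 ∨ t ≤ G1.lag f.1 z.1)
/-- pairs at the longest lag. -/
def PrL (z f : Fin T × Λ) : Prop := z ≠ f ∧ G1.lag f.1 z.1 + 1 = T
/-- allowed paths from the start of a window have displacement at most `v`. -/
def SlowD (ex ey : Fin T → Λ) (d : Λ → Λ → ℕ) (D : ℕ) (Al : Fin T → Prop) (W : Fin T × Λ → Prop)
    (v : ℕ) : Prop :=
  ∀ t γ, t < T → Path ex ey Al W (t / D * D) t γ → d (γ (t / D * D)) (γ t) ≤ v

variable {ex ey : Fin T → Λ} {d : Λ → Λ → ℕ} {V : ℕ → ℕ} {D B R R1 v τ K0 : ℕ}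

lemma mem_bal {r : ℕ} {x y : Λ} : y ∈ bal d r x ↔ d x y ≤ r := by simp [bal]

lemma slowD_of {Al : Fin T → Prop} {W : Fin T × Λ → Prop} (h : Slow ex ey d Al W v) (D : ℕ) :
    SlowD ex ey d D Al W v := fun t γ ht hp => h _ t γ (Nat.div_mul_le_self _ _) ht.le hp

lemma wsD_le (D : ℕ) (s : Fin T) : wsD D s ≤ s := Nat.div_mul_le_self _ _

lemma card_ws (hD : 0 < D) (S : Finset (Fin T)) (I : Finset ℕ) (h : ∀ s ∈ S, s.val / D ∈ I) :
    (S.image (wsD D)).card ≤ I.card := by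
  refine card_le_card_of_injOn (fun t => t.val / D) (fun t ht => ?_) fun t ht t' ht' e => ?_
  · obtain ⟨s, hs, rfl⟩ := mem_image.1 (mem_coe.1 ht)
    simpa only [wsD, Nat.mul_div_cancel _ hD, mem_coe] using h s hs
  · obtain ⟨s, -, rfl⟩ := mem_image.1 (mem_coe.1 ht)
    obtain ⟨s', -, rfl⟩ := mem_image.1 (mem_coe.1 ht')
    simp only [wsD, Nat.mul_div_cancel _ hD] at e
    exact Fin.ext (by simp only [wsD, e])

lemma step_le (hd : Met ex ey d) (ξ : Fin T → Bool) (u : Fin T × Λ) :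
    d u.2 (Sg ex ey ξ u).2 ≤ 1 := by
  obtain ⟨s, x⟩ := u
  rw [Sg_apply]
  unfold sg; split_ifs
  · rw [swap_apply_def]; split_ifs with h1 h2
    · rw [h1]; exact hd.2.2.2 s
    · rw [h2, hd.2.1]; exact hd.2.2.2 s
    · simp [hd.1]
  · simp [hd.1]

lemma far_step (hd : Met ex ey d) {r : Λ} {u : Fin T × Λ} (ξ : Fin T → Bool) (h : ¬ d r u.2 ≤ R) :
    R ≤ d r (Sg ex ey ξ u).2 := by
  have h1 := step_le hd ξ u
  have h2 := hd.2.2.1 r (Sg ex ey ξ u).2 u.2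
  rw [hd.2.1 (Sg ex ey ξ u).2 u.2] at h2
  omega

lemma near_le (hd : Met ex ey d) {r x : Λ} {s : Fin T} (h1 : d r (ex s) ≤ R ∨ d r (ey s) ≤ R)
    (h2 : nr d v x (ex s) ∨ nr d v x (ey s)) : d r x ≤ R + v + 1 := by
  have a1 := hd.2.2.2 s
  have a2 := hd.2.2.1 r (ex s) x
  have a3 := hd.2.2.1 r (ey s) x
  have a4 := hd.2.2.1 (ex s) (ey s) x
  have a5 := hd.2.2.1 (ey s) (ex s) x
  rw [hd.2.1 (ey s) (ex s)] at a5
  simp only [nr, hd.2.1 x] at h2
  omega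

lemma card_in (hd : Met ex ey d) (hV : Vol d V) (r : ℕ) (x : Λ) :
    (univ.filter fun y => d y x ≤ r).card ≤ V r := by
  simpa only [bal, hd.2.1 x] using hV r x

/-- **cells.** -/
theorem cel (hd : Met ex ey d) (hV : Vol d V) (hD : 0 < D) (hB : T ≤ B * D) (v : ℕ) :
    Cel ex ey (wsD D) (nr d v) (bal d (v + 1)) (V (v + 1)) B where
  hws := wsD_le D
  hB := (card_ws hD _ (range B) fun s _ => mem_range.2
    (Nat.div_lt_of_lt_mul (by rw [mul_comm]; exact s.2.trans_le hB))).trans_eq (card_range B)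
  mem s x h := mem_bal.2 (by simpa using near_le (R := 0) hd (Or.inl (hd.1 _).le) h)
  c1 := hV _
  c2 x := by simpa only [mem_bal] using card_in hd hV (v + 1) x

/-- the zone of `Hit`. -/
lemma hit_zone (hd : Met ex ey d) (r : Λ) (u : Fin T × Λ) (ξ : Fin T → Bool)
    (h : u.2 ∉ bal d R r) : PrD d R (0, r) (Sg ex ey ξ u) := far_step hd ξ (mt mem_bal.2 h)

/-- **zones, levels `≥ 2`.** -/
theorem zonD (hd : Met ex ey d) (hV : Vol d V) (hR : 1 ≤ R1) (hK : V R1 < K0) (R v : ℕ) :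
    Zon ex ey (wsD T) (nr d v) (PrD d R) (PrD d R1) (fun r => univ.filter fun u => d r u.2 ≤ R)
      (fun r => (bal d (R + v + 1) r).image (Prod.mk 0))
      (fun z => univ.filter fun f => R1 ≤ d z.2 f.2) (V (R + v + 1)) (V (R + v + 1)) 1 K0 where
  hws := wsD_le T
  hW r u ξ h := far_step hd ξ fun k => h (mem_filter.2 ⟨mem_univ _, k⟩)
  hZ r s x h1 h2 := mem_image.2 ⟨x, mem_bal.2 (near_le hd (by simpa [mem_tch] using h1) h2),
    Prod.ext (Fin.ext (by simp [wsD, Nat.div_eq_of_lt s.2])) rfl⟩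
  cZ r := card_image_le.trans (hV _ r)
  c3 z := (card_le_card fun r hr => by
    obtain ⟨x, hx, rfl⟩ := mem_image.1 (mem_filter.1 hr).2
    exact mem_filter.2 ⟨mem_univ _, mem_bal.1 hx⟩).trans (card_in hd hV _ z.2)
  cT := card_le_one.2 fun s hs t ht => by
    simp only [mem_image, mem_biUnion] at hs ht
    obtain ⟨_, ⟨_, -, _, -, rfl⟩, rfl⟩ := hs
    obtain ⟨_, ⟨_, -, _, -, rfl⟩, rfl⟩ := ht
    rfl
  hF z := ⟨by simp [hd.1]; omega, fun f hf => (mem_filter.1 hf).2, 0,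
    (card_le_card fun x hx => mem_bal.2 (by simp at hx; omega)).trans_lt ((hV R1 z.2).trans_lt hK)⟩

/-- **zones, level `1`**: the ball of radius `R` during the last `τ` windows. -/
theorem zonT (hd : Met ex ey d) (hV : Vol d V) (hR : 1 ≤ R) (hD : 0 < D) (hτ : 1 ≤ τ)
    (hT : τ * D < T) (v : ℕ) :
    Zon ex ey (wsD D) (nr d v) (PrT d R (τ * D)) PrL
      (fun r => univ.filter fun u => d r u.2 ≤ R ∧ T ≤ u.1.val + τ * D)
      (fun r => (univ.filter fun s : Fin T => T ≤ s.val + τ * D).image (wsD D) ×ˢ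
        bal d (R + v + 1) r)
      (fun z => univ.filter fun f => f.1 = z.1 + 1) ((τ + 1) * V (R + v + 1)) (V (R + v + 1))
      (τ + 1) (2 ^ 0) := by
  have h1 : 1 ≤ τ * D := Nat.mul_pos hτ hD
  have hc : ((univ.filter fun s : Fin T => T ≤ s.val + τ * D).image (wsD D)).card ≤ τ + 1 := by
    refine (card_ws hD _ (Icc ((T - τ * D) / D) ((T - τ * D) / D + τ)) fun s hs => ?_).trans
      (by rw [Nat.card_Icc]; omega)
    have h2 := (mem_filter.1 hs).2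
    refine mem_Icc.2 ⟨Nat.div_le_div_right (by omega), ?_⟩
    rw [← Nat.add_mul_div_right _ _ hD]
    exact Nat.div_le_div_right (by have := s.2; omega)
  have one : ((1 : Fin T) : ℕ) = 1 := by rw [Fin.val_one', Nat.mod_eq_of_lt (by omega)]
  refine ⟨wsD_le D, fun r u ξ h => ?_, fun r s x h1 h2 => ?_, fun r => ?_, fun z => ?_, ?_,
    fun z => ⟨?_, fun f hf => ?_, z.1 + 1, by simp⟩⟩
  · simp only [mem_filter, mem_univ, true_and, not_and_or] at h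
    rcases h with h | h
    · have := far_step hd ξ h
      refine ⟨fun e => ?_, Or.inl this⟩
      rw [← e, hd.1] at this; omega
    · have e : (Sg ex ey ξ u).1.val = u.1.val + 1 := by
        change (u.1 + 1).val = _
        rw [Fin.val_add, one, Nat.mod_eq_of_lt (by omega)]
      have ne : (0 : Fin T) ≠ (Sg ex ey ξ u).1 := fun k => by rw [← k] at e; simp at e
      refine ⟨fun k => ne (congrArg Prod.fst k), Or.inr ?_⟩
      rw [G1.lag, if_neg ne, zero_sub, Fin.val_neg, if_neg ne.symm, e]; omega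
  · simp only [mem_tch, mem_filter, mem_univ, true_and] at h1
    exact mem_product.2 ⟨mem_image_of_mem _ (mem_filter.2 ⟨mem_univ _, h1.elim (·.2) (·.2)⟩),
      mem_bal.2 (near_le hd (h1.imp (·.1) (·.1)) h2)⟩
  · rw [card_product]; exact Nat.mul_le_mul hc (hV _ r)
  · exact (card_le_card fun r hr => mem_filter.2 ⟨mem_univ _,
      mem_bal.1 (mem_product.1 (mem_filter.1 hr).2).2⟩).trans (card_in hd hV _ z.2)
  · refine le_trans (card_le_card fun s hs => ?_) hc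
    obtain ⟨z, hz, rfl⟩ := mem_image.1 hs
    obtain ⟨r, -, hr⟩ := mem_biUnion.1 hz
    exact (mem_product.1 hr).1
  all_goals
    have ne : z.1 ≠ z.1 + 1 := fun k => by
      have := congrArg Fin.val (add_left_cancel ((add_zero z.1).trans k))
      rw [one] at this; simp at this
  · simpa using ne
  · have e := (mem_filter.1 hf).2
    refine ⟨fun k => ne (k ▸ e), ?_⟩
    have ne1 : (1 : Fin T) ≠ 0 := fun k => ne (by rw [k, add_zero])
    rw [G1.lag, e, if_neg ne, sub_add_cancel_left, Fin.val_neg, if_neg ne1, one]; omega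

/-- **slow loops obey the speed rule.** -/
theorem slw_of {Al : Fin T → Prop} {W : Fin T × Λ → Prop} (h : SlowD ex ey d D Al W v)
    {g : Lp T Λ} (hAl : ∀ s, g.1 s = true → Al s) (hW : ∀ u ∈ g.2, W u) :
    TK.Slw ex ey (spd (wsD D) (nr d v)) g := by
  rintro ξ r rfl i
  have ht := arc_time ex ey (0, r) ξ
  simp only [Fin.val_zero, zero_add] at ht
  have h1 := Nat.div_add_mod i T
  have h2 := Nat.div_mul_le_self (i % T) D
  have key := h (i % T) (fun k => (arc ex ey (0, r) ξ (T * (i / T) + k)).2)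
    (Nat.mod_lt _ (NeZero.pos T)) fun s _ _ => ?_
  · simp only [spd, nr, wsD, ht]
    rw [h1] at key
    rwa [show i - (i % T - i % T / D * D) = T * (i / T) + i % T / D * D by omega]
  have e : arc ex ey (0, r) ξ (T * (i / T) + s) = (s, (arc ex ey (0, r) ξ (T * (i / T) + s)).2) :=
    Prod.ext (Fin.ext (by rw [ht]; simp [Nat.mod_eq_of_lt s.2])) rfl
  have hm : (s, (arc ex ey (0, r) ξ (T * (i / T) + s)).2) ∈ (lp ex ey ξ (0, r)).2 :=
    e ▸ arc_mem_lo ξ _ _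
  refine ⟨hW _ hm, ?_⟩
  beta_reduce
  generalize (arc ex ey (0, r) ξ (T * (i / T) + s)).2 = x at e hm
  rw [← add_assoc, arc_succ, e, Sg_apply]
  unfold sg; split_ifs with k
  swap
  · exact Or.inl rfl
  by_cases k2 : Gas.tch ex ey (Gas.obv ex ey ξ (0, r)) s
  · exact Or.inr ⟨hAl s (by simp only [Gas.lp, if_pos k2, k]), rfl⟩
  · exact Or.inl (swap_apply_of_ne_of_ne (fun z => k2 (Or.inl (z ▸ hm))) fun z => k2 (Or.inr (z ▸ hm)))

end Crest.Agent.N337.C9
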